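import Mathlib

/-!
# P202 mixed characteristic: power series over completely integrally closed rings

If every fraction with bounded denominators of powers lies in the ring, the same holds for the
power series, which are therefore integrally closed.
-/

noncomputable section

namespace Vale.Agent.P202.Mixed

universe u v

/-- Complete integral closedness: if all `b ^ n` divide a fixed nonzero multiple of `a ^ n`, then
`b` divides `a`. -/
def CIC (R : Type*) [CommRing R] : Prop :=
  ∀ a b c : R, b ≠ 0 → c ≠ 0 → (∀ n : ℕ, b ^ n ∣ c * a ^ n) → b ∣ a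

theorem CIC.of_ringEquiv {R : Type u} {S : Type v} [CommRing R] [CommRing S] (e : R ≃+* S)
    (h : CIC R) : CIC S := by
  intro a b c hb hc hdvd
  have := h (e.symm a) (e.symm b) (e.symm c) (by simpa using hb) (by simpa using hc) fun n => by
    have := map_dvd e.symm (hdvd n)
    simpa using this
  have := map_dvd e this
  simpa using this

theorem CIC.sub_mul {R : Type*} [CommRing R] {a b c q : R} (h : ∀ n : ℕ, b ^ n ∣ c * a ^ n)
    (n : ℕ) : b ^ n ∣ c * (a - q * b) ^ n := by
  rw [sub_eq_add_neg, add_pow, Finset.mul_sum]
  refine Finset.dvd_sum fun i hi => ?_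
  rw [neg_pow, mul_pow, show c * (a ^ i * ((-1) ^ (n - i) * (q ^ (n - i) * b ^ (n - i))) *
    (n.choose i : R)) = (c * a ^ i) * b ^ (n - i) *
      ((-1) ^ (n - i) * q ^ (n - i) * (n.choose i : R)) by ring]
  refine Dvd.dvd.mul_right ?_ _
  have hb : b ^ i * b ^ (n - i) = b ^ n := by
    rw [← pow_add, Nat.add_sub_cancel' (by simp at hi; omega)]
  rw [← hb]
  exact mul_dvd_mul_right (h i) _

section PowerSeries

open PowerSeries

/-- The lowest coefficient of a power series. -/
def lowCoeff {R : Type*} [CommRing R] (f : PowerSeries R) : R :=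
  constantCoeff (divXPowOrder f)

theorem lowCoeff_mul {R : Type*} [CommRing R] [IsDomain R] (f g : PowerSeries R) :
    lowCoeff (f * g) = lowCoeff f * lowCoeff g := by
  rw [lowCoeff, divXPowOrder_mul, map_mul, lowCoeff, lowCoeff]

theorem lowCoeff_pow {R : Type*} [CommRing R] [IsDomain R] (f : PowerSeries R) (n : ℕ) :
    lowCoeff (f ^ n) = lowCoeff f ^ n := by
  induction n with
  | zero => simp [lowCoeff, divXPowOrder_one]
  | succ n ih => rw [pow_succ, lowCoeff_mul, ih, pow_succ]

/-- Complete integral closedness passes to power series. -/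
theorem CIC.powerSeries {R : Type u} [CommRing R] [IsDomain R] (h : CIC R) :
    CIC (PowerSeries R) := by
  intro a b c hb hc hdvd
  set m := b.order.toNat with hm
  have hbm : lowCoeff b ≠ 0 := fun e => hb (constantCoeff_divXPowOrder_eq_zero_iff.1 e)
  have hcl : lowCoeff c ≠ 0 := fun e => hc (constantCoeff_divXPowOrder_eq_zero_iff.1 e)
  -- the part of `a` below any degree can be removed
  have step : ∀ j : ℕ, ∃ q : PowerSeries R, ∀ i < j, coeff i (a - q * b) = 0 := by
    intro j
    induction j with
    | zero => exact ⟨0, fun i hi => absurd hi (Nat.not_lt_zero i)⟩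
    | succ j ih =>
      obtain ⟨q, hq⟩ := ih
      by_cases hj0 : coeff j (a - q * b) = 0
      · exact ⟨q, fun i hi => (Nat.lt_succ_iff_lt_or_eq.1 hi).elim (hq i) (fun e => e ▸ hj0)⟩
      have ha' : a - q * b ≠ 0 := fun e => hj0 (by rw [e, map_zero])
      have hord : (a - q * b).order = j := order_eq_nat.2 ⟨hj0, hq⟩
      have hbo : b.order = m := (coe_toNat_order hb).symm
      have key : ∀ n : ℕ, n * m ≤ c.order.toNat + n * j ∧
          lowCoeff b ^ n ∣ lowCoeff c * coeff j (a - q * b) ^ n := by
        intro n
        obtain ⟨w, hw⟩ := CIC.sub_mul (q := q) hdvd n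
        constructor
        · have hwz : w ≠ 0 := fun e => by
            rw [e, mul_zero] at hw
            exact mul_ne_zero hc (pow_ne_zero n ha') hw
          have ho := congrArg order hw
          rw [order_mul, order_mul, order_pow, order_pow, hord, hbo, ← coe_toNat_order hc,
            ← coe_toNat_order hwz, nsmul_eq_mul, nsmul_eq_mul] at ho
          have ho' : c.order.toNat + n * j = n * m + w.order.toNat := by exact_mod_cast ho
          omega
        · have hl := congrArg lowCoeff hw
          rw [lowCoeff_mul, lowCoeff_mul, lowCoeff_pow, lowCoeff_pow] at hl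
          have hlj : lowCoeff (a - q * b) = coeff j (a - q * b) := by
            rw [lowCoeff, constantCoeff_divXPowOrder, hord, ENat.toNat_natCast]
          rw [hlj] at hl
          exact ⟨_, hl⟩
      have hmj : m ≤ j := by
        by_contra hlt
        have h1 := (key (c.order.toNat + 1)).1
        have h2 : (c.order.toNat + 1) * (j + 1) ≤ (c.order.toNat + 1) * m :=
          Nat.mul_le_mul_left _ (by omega)
        rw [Nat.mul_succ] at h2
        omega
      obtain ⟨t, ht⟩ := h _ _ _ hbm hcl fun n => (key n).2
      refine ⟨q + C t * X ^ (j - m), fun i hi => ?_⟩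
      rw [add_mul, ← sub_sub, map_sub, mul_assoc, coeff_C_mul, coeff_X_pow_mul']
      rcases Nat.lt_succ_iff_lt_or_eq.1 hi with hi | rfl
      · rw [hq i hi]
        split_ifs with h1
        · rw [coeff_of_lt_order_toNat (i - (j - m)) (by omega)]
          simp
        · simp
      · rw [if_pos (Nat.sub_le _ _), show i - (i - m) = m by omega, ht, lowCoeff,
          constantCoeff_divXPowOrder, ← hm]
        ring
  choose q hq using step
  have hagree : ∀ i J : ℕ, i + m + 1 ≤ J → coeff i (q J) = coeff i (q (i + m + 1)) := by
    intro i J hJ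
    by_contra hne
    have hd : q J - q (i + m + 1) ≠ 0 := fun e => hne (by rw [sub_eq_zero.1 e])
    have h1 : ((i + m + 1 : ℕ) : ℕ∞) ≤ ((q J - q (i + m + 1)) * b).order := by
      refine nat_le_order _ _ fun k hk => ?_
      rw [show (q J - q (i + m + 1)) * b = (a - q (i + m + 1) * b) - (a - q J * b) by ring,
        map_sub, hq _ k hk, hq _ k (hk.trans_le hJ), sub_zero]
    have h2 : (q J - q (i + m + 1)).order ≤ (i : ℕ∞) :=
      order_le i (by rw [map_sub]; exact sub_ne_zero.2 hne)
    rw [order_mul, ← coe_toNat_order hb, ← coe_toNat_order hd] at h1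
    rw [← coe_toNat_order hd] at h2
    norm_cast at h1 h2
    omega
  refine ⟨mk fun i => coeff i (q (i + m + 1)), ?_⟩
  rw [← sub_eq_zero]
  ext j
  rw [map_zero, ← hq (j + m + 1) j (by omega), mul_comm b, map_sub, map_sub, coeff_mul, coeff_mul]
  congr 1
  refine Finset.sum_congr rfl fun x hx => ?_
  rw [Finset.HasAntidiagonal.mem_antidiagonal] at hx
  rw [coeff_mk, hagree x.1 (j + m + 1) (by omega)]

end PowerSeries

end Vale.Agent.P202.Mixed
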