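import Vale.Agent.P202.Mixed.Defs
import Vale.Agent.P202.Mixed.Source.Normal

/-!
# P202 mixed characteristic: power series over a Cohen ring

They form a complete local integrally closed domain; the powers of the maximal ideal are described
coefficientwise.
-/

noncomputable section

namespace Vale.Agent.P202.Mixed

open IsLocalRing

universe u

/-- A completely integrally closed domain is integrally closed. -/
theorem CIC.isIntegrallyClosed {R : Type u} [CommRing R] [IsDomain R] (h : CIC R) :
    IsIntegrallyClosed R := by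
  rw [isIntegrallyClosed_iff (K := FractionRing R)]
  intro x hx
  obtain ⟨a, ⟨b, hbm⟩, rfl⟩ := IsLocalization.exists_mk'_eq (nonZeroDivisors R) x
  have hb : b ≠ 0 := nonZeroDivisors.ne_zero hbm
  obtain ⟨f, hf, hfx⟩ := hx
  set K := FractionRing R
  have hb' : algebraMap R K b ≠ 0 := by simpa
  set z : K := IsLocalization.mk' K a ⟨b, hbm⟩
  have hz : algebraMap R K b * z = algebraMap R K a := IsLocalization.mk'_spec' K a ⟨b, hbm⟩
  have key : ∀ n : ℕ, b ^ n ∣ b ^ f.natDegree * a ^ n := by
    intro n
    have h1 : Polynomial.aeval z (Polynomial.X ^ n %ₘ f) = z ^ n := by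
      have hfx' : Polynomial.aeval z f = 0 := hfx
      rw [Polynomial.modByMonic_eq_sub_mul_div, map_sub, map_mul, hfx']
      simp
    have hdeg : (Polynomial.X ^ n %ₘ f).natDegree < f.natDegree + 1 :=
      Nat.lt_succ_of_le (Polynomial.natDegree_modByMonic_le _ hf)
    rw [Polynomial.aeval_eq_sum_range' hdeg] at h1
    refine ⟨∑ i ∈ Finset.range (f.natDegree + 1),
      (Polynomial.X ^ n %ₘ f).coeff i * a ^ i * b ^ (f.natDegree - i), ?_⟩
    refine IsFractionRing.injective R K ?_
    rw [map_mul, map_mul, map_pow, map_pow, map_pow, map_sum, ← hz, mul_pow, ← h1,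
      Finset.mul_sum, Finset.mul_sum, Finset.mul_sum]
    refine Finset.sum_congr rfl fun i hi => ?_
    rw [map_mul, map_mul, map_pow, map_pow, ← hz, mul_pow, Algebra.smul_def,
      ← Nat.add_sub_cancel' (Nat.lt_succ_iff.1 (Finset.mem_range.1 hi))]
    rw [pow_add, show i + (f.natDegree - i) - i = f.natDegree - i by omega]
    ring
  obtain ⟨t, ht⟩ := h a b _ hb (pow_ne_zero _ hb) key
  exact ⟨t, mul_left_cancel₀ hb' (by rw [hz, ht, map_mul])⟩

section Cohen

variable {p : ℕ} {C : Type u} [CommRing C] [IsLocalRing C]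

theorem IsCohen.not_isUnit (hC : IsCohen p C) : ¬ IsUnit (p : C) :=
  (mem_maximalIdeal _).1 (by rw [hC.max_eq]; exact Ideal.mem_span_singleton_self _)

theorem IsCohen.eq_pow_mul_unit (hC : IsCohen p C) {a : C} (ha : a ≠ 0) :
    ∃ (k : ℕ) (u : Cˣ), a = (p : C) ^ k * u := by
  classical
  have := hC.noetherian
  have := hC.complete
  have hex : ∃ k, a ∉ maximalIdeal C ^ k := by
    by_contra h
    push Not at h
    exact ha (IsHausdorff.haus' (I := maximalIdeal C) a fun n => by
      rw [SModEq.zero, smul_eq_mul, Ideal.mul_top]; exact h n)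
  have hk : Nat.find hex ≠ 0 := fun e => by
    have := Nat.find_spec hex
    rw [e, pow_zero, Ideal.one_eq_top] at this
    exact this trivial
  have h0 := not_not.1 (Nat.find_min hex (m := Nat.find hex - 1) (by omega))
  have hpow : ∀ k, maximalIdeal C ^ k = Ideal.span {(p : C) ^ k} := fun k => by
    rw [hC.max_eq, Ideal.span_singleton_pow]
  rw [hpow, Ideal.mem_span_singleton'] at h0
  obtain ⟨c, hc⟩ := h0
  have hcu : IsUnit c := by
    by_contra hcu
    have hcm : c ∈ maximalIdeal C := (mem_maximalIdeal c).2 hcu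
    refine Nat.find_spec hex ?_
    have h2 := Ideal.mul_mem_mul hcm (show (p : C) ^ (Nat.find hex - 1) ∈
      maximalIdeal C ^ (Nat.find hex - 1) by rw [hpow]; exact Ideal.mem_span_singleton_self _)
    rw [hc, ← pow_succ', Nat.sub_add_cancel (Nat.one_le_iff_ne_zero.2 hk)] at h2
    exact h2
  exact ⟨_, hcu.unit, by rw [← hc, mul_comm, IsUnit.unit_spec]⟩

theorem IsCohen.pow_ne_zero' (hC : IsCohen p C) (k : ℕ) : (p : C) ^ k ≠ 0 :=
  nonZeroDivisors.ne_zero (pow_mem hC.p_regular k)

theorem IsCohen.isDomain (hC : IsCohen p C) : IsDomain C :=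
  have : NoZeroDivisors C := ⟨fun {a b} hab => by
    by_contra h
    push Not at h
    obtain ⟨i, u, rfl⟩ := hC.eq_pow_mul_unit h.1
    obtain ⟨j, v, rfl⟩ := hC.eq_pow_mul_unit h.2
    refine hC.pow_ne_zero' (i + j) ((IsUnit.mul_left_eq_zero (u.isUnit.mul v.isUnit)).1 ?_)
    rw [← hab, pow_add]
    ring⟩
  NoZeroDivisors.to_isDomain C

theorem IsCohen.le_of_pow_dvd (hC : IsCohen p C) {i j : ℕ} {u : C} (hu : IsUnit u)
    (h : (p : C) ^ i ∣ (p : C) ^ j * u) : i ≤ j := by
  by_contra hlt
  have := hC.isDomain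
  rw [hu.dvd_mul_right, show i = j + (i - j) by omega, pow_add] at h
  nth_rewrite 2 [← mul_one ((p : C) ^ j)] at h
  have h1 := (mul_dvd_mul_iff_left (hC.pow_ne_zero' j)).1 h
  exact hC.not_isUnit (isUnit_of_dvd_one ((dvd_pow_self _ (by omega)).trans h1))

theorem IsCohen.cic (hC : IsCohen p C) : CIC C := by
  have := hC.isDomain
  intro a b c hb hc h
  rcases eq_or_ne a 0 with rfl | ha
  · exact dvd_zero b
  obtain ⟨i, u, rfl⟩ := hC.eq_pow_mul_unit ha
  obtain ⟨j, v, rfl⟩ := hC.eq_pow_mul_unit hb
  obtain ⟨l, w, rfl⟩ := hC.eq_pow_mul_unit hc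
  have key : ∀ n, j * n ≤ l + i * n := fun n => by
    refine hC.le_of_pow_dvd (w.isUnit.mul (u.isUnit.pow n))
      (dvd_trans (Dvd.intro ((v : C) ^ n) rfl) ((dvd_trans (dvd_of_eq ?_) (h n)).trans
        (dvd_of_eq ?_)))
    · rw [mul_pow, ← pow_mul]
    · rw [mul_pow, ← pow_mul, pow_add]
      ring
  have hji : j ≤ i := by
    by_contra hlt
    have h1 := key (l + 1)
    have h2 : (i + 1) * (l + 1) ≤ j * (l + 1) := Nat.mul_le_mul_right _ (by omega)
    rw [Nat.succ_mul] at h2
    omega
  rw [v.isUnit.mul_right_dvd, u.isUnit.dvd_mul_right]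
  exact pow_dvd_pow _ hji

end Cohen

theorem CIC.mvPowerSeries {R : Type u} [CommRing R] [IsDomain R] (h : CIC R) :
    ∀ n : ℕ, CIC (MvPowerSeries (Fin n) R)
  | 0 => by
    refine CIC.of_ringEquiv (R := R) ?_ h
    exact
      { toFun := MvPowerSeries.C
        invFun := MvPowerSeries.constantCoeff
        left_inv := fun r => MvPowerSeries.constantCoeff_C r
        right_inv := fun F => by
          ext t
          obtain rfl : t = 0 := Subsingleton.elim _ _
          simp
        map_mul' := map_mul MvPowerSeries.C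
        map_add' := map_add MvPowerSeries.C }
  | n + 1 =>
    have := NoZeroDivisors.to_isDomain (MvPowerSeries (Fin n) R)
    CIC.of_ringEquiv (MvPowerSeries.finSuccEquiv R n).symm.toRingEquiv
      (CIC.powerSeries (CIC.mvPowerSeries h n))

section Coefficients

variable {σ R : Type*} [CommRing R] [IsLocalRing R]

open MvPowerSeries in
theorem coeff_mem_of_mem_maximalIdeal_pow {j : ℕ} {F : MvPowerSeries σ R}
    (hF : F ∈ maximalIdeal (MvPowerSeries σ R) ^ j) :
    ∀ t : σ →₀ ℕ, coeff t F ∈ maximalIdeal R ^ (j - t.degree) := by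
  classical
  induction j generalizing F with
  | zero => simp
  | succ j ih =>
    rw [pow_succ'] at hF
    induction hF using Submodule.mul_induction_on' with
    | mem_mul_mem a ha b hb =>
      intro t
      rw [coeff_mul]
      refine Ideal.sum_mem _ fun x hx => ?_
      rw [Finset.HasAntidiagonal.mem_antidiagonal] at hx
      have hbt := ih hb x.2
      have hdeg : x.1.degree + x.2.degree = t.degree := by rw [← map_add, hx]
      by_cases h0 : x.1 = 0
      · have h1 : coeff x.1 a ∈ maximalIdeal R := by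
          rw [h0, coeff_zero_eq_constantCoeff_apply]
          exact (mem_maximalIdeal _).2 fun hu =>
            (mem_maximalIdeal a).1 ha (isUnit_iff_constantCoeff.2 hu)
        have h2 := Ideal.mul_mem_mul h1 hbt
        rw [← pow_succ'] at h2
        refine Ideal.pow_le_pow_right ?_ h2
        rw [h0, map_zero, zero_add] at hdeg
        omega
      · have h1 : x.1.degree ≠ 0 := fun e => h0 ((Finsupp.degree_eq_zero_iff _).1 e)
        exact Ideal.mul_mem_left _ _ (Ideal.pow_le_pow_right (by omega) hbt)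
    | add a ha b hb iha ihb =>
      intro t
      rw [map_add]
      exact add_mem (iha t) (ihb t)

variable [Finite σ]

theorem mem_maximalIdeal_pow_of_coeff_mem {j : ℕ} {F : MvPowerSeries σ R}
    (hF : ∀ t : σ →₀ ℕ, MvPowerSeries.coeff t F ∈ maximalIdeal R ^ (j - t.degree)) :
    F ∈ maximalIdeal (MvPowerSeries σ R) ^ j := by
  classical
  set M := maximalIdeal (MvPowerSeries σ R)
  have hX : Ideal.span (Set.range (MvPowerSeries.X : σ → MvPowerSeries σ R)) ≤ M := by
    rw [Ideal.span_le]
    rintro _ ⟨i, rfl⟩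
    exact (mem_maximalIdeal _).2 fun h => by
      simpa using MvPowerSeries.isUnit_iff_constantCoeff.1 h
  have hCm : (maximalIdeal R).map (MvPowerSeries.C (σ := σ)) ≤ M := by
    rw [Ideal.map_le_iff_le_comap]
    exact fun a ha => (mem_maximalIdeal _).2 fun h => (mem_maximalIdeal a).1 ha (by
      simpa using MvPowerSeries.isUnit_iff_constantCoeff.1 h)
  rw [← sub_add_cancel F (MvPowerSeries.truncTotal j F : MvPowerSeries σ R)]
  refine add_mem (Ideal.pow_right_mono hX j (mem_span_X_pow fun t ht => ?_)) ?_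
  · simp [MvPowerSeries.coeff_truncTotal _ ht]
  · rw [(MvPowerSeries.truncTotal j F).as_sum, ← MvPolynomial.coeToMvPowerSeries.ringHom_apply,
      map_sum]
    refine Ideal.sum_mem _ fun t ht => ?_
    have htj : t.degree < j := by
      by_contra hlt
      exact MvPolynomial.mem_support_iff.1 ht (by
        rw [MvPowerSeries.coeff_truncTotal_eq_ite, if_neg hlt])
    rw [MvPowerSeries.coeff_truncTotal _ htj, MvPolynomial.monomial_eq, map_mul,
      MvPolynomial.coeToMvPowerSeries.ringHom_apply, MvPolynomial.coe_C, Finsupp.prod, map_prod]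
    have h1 : MvPowerSeries.C (MvPowerSeries.coeff t F) ∈ M ^ (j - t.degree) :=
      Ideal.pow_right_mono hCm _ (by rw [← Ideal.map_pow]; exact Ideal.mem_map_of_mem _ (hF t))
    have h2 : ∏ i ∈ t.support, MvPolynomial.coeToMvPowerSeries.ringHom
        ((MvPolynomial.X i : MvPolynomial σ R) ^ t i) ∈ M ^ t.degree := by
      rw [Finsupp.degree_apply, ← Finset.prod_pow_eq_pow_sum]
      refine Ideal.prod_mem_prod fun i _ => ?_
      rw [map_pow, MvPolynomial.coeToMvPowerSeries.ringHom_apply, MvPolynomial.coe_X]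
      exact Ideal.pow_mem_pow (hX (Ideal.subset_span ⟨i, rfl⟩)) _
    have h3 := Ideal.mul_mem_mul h1 h2
    rwa [← pow_add, Nat.sub_add_cancel htj.le] at h3

/-- Power series over a complete local ring form a complete local ring. -/
theorem isAdicComplete_mvPowerSeries [IsAdicComplete (maximalIdeal R) R] :
    IsAdicComplete (maximalIdeal (MvPowerSeries σ R)) (MvPowerSeries σ R) where
  haus' F hF := by
    ext t
    rw [map_zero]
    refine IsHausdorff.haus' (I := maximalIdeal R) _ fun n => ?_
    have h := hF (n + t.degree)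
    rw [SModEq.zero, smul_eq_mul, Ideal.mul_top] at h ⊢
    simpa using coeff_mem_of_mem_maximalIdeal_pow h t
  prec' f hf := by
    have hcau : ∀ (t : σ →₀ ℕ) {i k : ℕ}, i ≤ k →
        MvPowerSeries.coeff t (f (i + t.degree)) ≡ MvPowerSeries.coeff t (f (k + t.degree))
          [SMOD (maximalIdeal R ^ i • ⊤ : Ideal R)] := by
      intro t i k hik
      have h := hf (Nat.add_le_add_right hik t.degree)
      rw [SModEq.sub_mem, smul_eq_mul, Ideal.mul_top] at h ⊢
      simpa using coeff_mem_of_mem_maximalIdeal_pow h t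
    choose lim hlim using fun t => IsPrecomplete.prec' (I := maximalIdeal R)
      (fun i => MvPowerSeries.coeff t (f (i + t.degree))) (hcau t)
    let G : MvPowerSeries σ R := fun t => lim t
    refine ⟨G, fun n => ?_⟩
    rw [SModEq.sub_mem, smul_eq_mul, Ideal.mul_top]
    refine mem_maximalIdeal_pow_of_coeff_mem fun t => ?_
    rcases Nat.lt_or_ge n t.degree with h | h
    · rw [Nat.sub_eq_zero_of_le h.le, pow_zero, Ideal.one_eq_top]
      trivial
    have h1 := hlim t (n - t.degree)
    rw [SModEq.sub_mem, smul_eq_mul, Ideal.mul_top, Nat.sub_add_cancel h] at h1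
    rw [map_sub]
    exact h1

end Coefficients

end Vale.Agent.P202.Mixed
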