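import Vale.Agent.P202.RingSide.Hilbert
import Vale.Agent.P202.Reduce.CutDim

/-!
# P202 mixed characteristic: lengths of quotients along a finite map
-/

noncomputable section

namespace Vale.Agent.P202.Mixed

open IsLocalRing

universe u

theorem length_quotient_comap {P Q : Type u} [CommRing P] [CommRing Q] (f : P →+* Q)
    (hf : Function.Surjective f) (J : Ideal Q) :
    Module.length P (P ⧸ J.comap f) = Module.length Q (Q ⧸ J) := by
  let := f.toAlgebra
  rw [← Module.length_eq_of_surjective (S := P) (R := Q) (M := Q ⧸ J) hf]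
  let ψ : P →ₗ[P] Q ⧸ J := ((J.mkQ).restrictScalars P).comp (Algebra.linearMap P Q)
  have hψ : Function.Surjective ψ := fun y => by
    obtain ⟨q, rfl⟩ := Submodule.mkQ_surjective J y
    obtain ⟨a, rfl⟩ := hf q
    exact ⟨a, rfl⟩
  have hker : LinearMap.ker ψ = J.comap f := by
    ext a
    simp [ψ, Ideal.mem_comap, RingHom.algebraMap_toAlgebra, Ideal.Quotient.eq_zero_iff_mem]
  exact ((Submodule.quotEquivOfEq _ _ hker.symm).trans
    (ψ.quotKerEquivOfSurjective hψ)).length_eq

/-- A quotient of dimension at most `d` grows at most like the `d`-th power along any ideal which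
is primary modulo it. -/
theorem exists_length_sup_pow_le {P : Type u} [CommRing P] [IsLocalRing P] [IsNoetherianRing P]
    (I X : Ideal P) {n d : ℕ} (hn : maximalIdeal P ^ n ≤ I ⊔ X)
    (hdim : ringKrullDim (P ⧸ I) ≤ (d : WithBot ℕ∞)) :
    ∃ c₀ : ℕ, ∀ j : ℕ,
      Module.length P (P ⧸ (I ⊔ X ^ j)) ≤ ((c₀ * (j + 1) ^ d : ℕ) : ℕ∞) := by
  by_cases hI : I = ⊤
  · refine ⟨0, fun j => ?_⟩
    have : Subsingleton (P ⧸ (I ⊔ X ^ j)) :=
      Submodule.Quotient.subsingleton_iff.2 (by rw [hI]; simp)
    simp [Module.length_eq_zero]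
  have := Ideal.Quotient.nontrivial_iff.2 hI
  have : IsLocalRing (P ⧸ I) :=
    IsLocalRing.of_surjective' (Ideal.Quotient.mk I) Ideal.Quotient.mk_surjective
  obtain ⟨C, hC⟩ := exists_qlen_pow_le (A := P ⧸ I)
  have hmax : (maximalIdeal P).map (Ideal.Quotient.mk I) = maximalIdeal (P ⧸ I) :=
    IsLocalRing.eq_maximalIdeal ((Ideal.map_eq_top_or_isMaximal_of_surjective _
      Ideal.Quotient.mk_surjective (maximalIdeal.isMaximal P)).resolve_left fun h => by
        have h1 := congrArg (Ideal.comap (Ideal.Quotient.mk I)) h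
        rw [Ideal.comap_map_of_surjective' _ Ideal.Quotient.mk_surjective, Ideal.mk_ker,
          sup_eq_left.2 (le_maximalIdeal hI), Ideal.comap_top] at h1
        exact (maximalIdeal.isMaximal P).ne_top h1)
  refine ⟨C * (n + 1) ^ d, fun j => ?_⟩
  have hle : maximalIdeal P ^ (n * j) ⊔ I ≤ I ⊔ X ^ j := by
    refine sup_le ?_ le_sup_left
    rw [pow_mul]
    refine (Ideal.pow_right_mono hn j).trans ?_
    have h : ((I ⊔ X) ^ j).map (Ideal.Quotient.mk I) = (X ^ j).map (Ideal.Quotient.mk I) := by
      rw [Ideal.map_pow, Ideal.map_pow, Ideal.map_sup, Ideal.map_quotient_self, bot_sup_eq]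
    have h2 := (Ideal.le_comap_map (f := Ideal.Quotient.mk I) (I := (I ⊔ X) ^ j))
    rw [h, Ideal.comap_map_of_surjective' _ Ideal.Quotient.mk_surjective, Ideal.mk_ker,
      sup_comm (X ^ j)] at h2
    exact h2
  refine (length_quotient_mono hle).trans ?_
  have h1 : maximalIdeal P ^ (n * j) ⊔ I =
      (maximalIdeal (P ⧸ I) ^ (n * j)).comap (Ideal.Quotient.mk I) := by
    rw [← hmax, ← Ideal.map_pow, Ideal.comap_map_of_surjective' _ Ideal.Quotient.mk_surjective,
      Ideal.mk_ker]
  rw [h1, length_quotient_comap _ Ideal.Quotient.mk_surjective, ← coe_qlen le_rfl, Nat.cast_le]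
  refine (hC _).trans ?_
  rw [mul_assoc C]
  refine Nat.mul_le_mul_left _ ?_
  calc (n * j + 1) ^ dimNat (P ⧸ I) ≤ (n * j + 1) ^ d :=
        Nat.pow_le_pow_right (Nat.succ_pos _) (dimNat_le hdim)
    _ ≤ ((n + 1) * (j + 1)) ^ d := Nat.pow_le_pow_left (by ring_nf; omega) _
    _ = (n + 1) ^ d * (j + 1) ^ d := mul_pow _ _ _

/-- Modulo `π ^ D` and an ideal which together with `π` gives the maximal ideal, the length is at
most `D`. -/
theorem length_quotient_pow_sup_le {P : Type u} [CommRing P] [IsLocalRing P] (π : P) (X : Ideal P)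
    (h : maximalIdeal P ≤ Ideal.span {π} ⊔ X) (D : ℕ) :
    Module.length P (P ⧸ (Ideal.span {π ^ D} ⊔ X)) ≤ (D : ℕ∞) := by
  classical
  have hJ : Module.length P (P ⧸ (Ideal.span {π} ⊔ X)) ≤ 1 := by
    refine (length_quotient_mono h).trans_eq ?_
    have : IsSimpleModule P (P ⧸ maximalIdeal P) := by
      rw [isSimpleModule_iff_isCoatom]
      exact (maximalIdeal.isMaximal P).out
    exact Module.length_eq_one P _
  induction D with
  | zero => simp
  | succ i ih =>
    have hle : Ideal.span {π ^ (i + 1)} ⊔ X ≤ Ideal.span {π ^ i} ⊔ X :=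
      sup_le_sup_right (Ideal.span_singleton_le_span_singleton.2 (pow_dvd_pow _ i.le_succ)) _
    rw [length_quotient_eq_add hle, Nat.cast_succ, add_comm ((i : ℕ∞)) 1]
    refine add_le_add ((length_map_mkQ_le {π ^ i} (J := Ideal.span {π} ⊔ X) ?_
      fun a ha c hc => ?_).trans ?_) ih
    · rw [Finset.coe_singleton]
      exact sup_le_sup_left le_sup_right _
    · obtain rfl := Finset.mem_singleton.1 ha
      obtain ⟨u, hu, v, hv, rfl⟩ := Submodule.mem_sup.1 hc
      obtain ⟨e, rfl⟩ := Ideal.mem_span_singleton'.1 hu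
      rw [add_mul]
      exact add_mem (Ideal.mem_sup_left (Ideal.mem_span_singleton'.2 ⟨e, by ring⟩))
        (Ideal.mem_sup_right (Ideal.mul_mem_right _ _ hv))
    · simpa using hJ

/-- The length of a quotient of the target of a finite map is at most that of its image plus that
of the cokernel. -/
theorem length_quotient_le_add {P A : Type u} [CommRing P] [CommRing A] [Algebra P A]
    (s : Finset A) (hs : Submodule.span P (s : Set A) = ⊤) {K : Ideal A} {I I' : Ideal P}
    (hI : I ≤ K.comap (algebraMap P A))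
    (hI' : ∀ c ∈ I', ∀ a : A, ∃ b : P, c • a - algebraMap P A b ∈ K) :
    Module.length A (A ⧸ K) ≤
      Module.length P (P ⧸ I) + (s.card : ℕ∞) * Module.length P (P ⧸ I') := by
  classical
  have h0 : Module.length A (A ⧸ K) ≤ Module.length P (A ⧸ K) := by
    have h := Submodule.length_le_length_restrictScalars P (⊤ : Submodule A (A ⧸ K))
    rwa [Module.length_top, Submodule.restrictScalars_top, Module.length_top] at h
  refine h0.trans ?_
  let mk : A →ₗ[P] A ⧸ K := K.mkQ.restrictScalars P
  let ψ : P →ₗ[P] A ⧸ K := mk.comp (Algebra.linearMap P A)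
  set S := LinearMap.range ψ
  rw [Module.length_eq_add_of_exact S.subtype S.mkQ S.subtype_injective S.mkQ_surjective
    (LinearMap.exact_subtype_mkQ S)]
  refine add_le_add ?_ ?_
  · let ψ' : (P ⧸ I) →ₗ[P] A ⧸ K := I.liftQ ψ fun c hc =>
      LinearMap.mem_ker.2 ((Submodule.Quotient.mk_eq_zero K).2 (hI hc))
    have hr : LinearMap.range ψ' = S := Submodule.range_liftQ I ψ _
    exact ((LinearEquiv.ofEq _ _ hr).symm.length_eq).le.trans
      (Module.length_le_of_surjective _ ψ'.surjective_rangeRestrict)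
  · let g : s → (P ⧸ I') →ₗ[P] (A ⧸ K) ⧸ S := fun a =>
      I'.liftQ (LinearMap.toSpanSingleton P _ (S.mkQ (mk a))) fun c hc => by
        rw [LinearMap.mem_ker, LinearMap.toSpanSingleton_apply, ← map_smul, ← map_smul,
          Submodule.mkQ_apply, Submodule.Quotient.mk_eq_zero]
        obtain ⟨b, hb⟩ := hI' c hc a
        exact ⟨b, ((Submodule.Quotient.eq K).2 hb).symm⟩
    let G : (s → P ⧸ I') →ₗ[P] (A ⧸ K) ⧸ S := LinearMap.lsum P (fun _ : s => P ⧸ I') P g
    have hG : Function.Surjective G := by
      rw [← LinearMap.range_eq_top, eq_top_iff]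
      rintro y -
      obtain ⟨z, rfl⟩ := S.mkQ_surjective y
      obtain ⟨a, rfl⟩ := K.mkQ_surjective z
      show S.mkQ (mk a) ∈ LinearMap.range G
      have ha : a ∈ Submodule.span P (s : Set A) := hs ▸ Submodule.mem_top
      induction ha using Submodule.span_induction with
      | mem b hb =>
        refine ⟨Pi.single ⟨b, hb⟩ (Submodule.Quotient.mk 1), ?_⟩
        simp only [G, LinearMap.lsum_apply, LinearMap.sum_apply]
        rw [Finset.sum_eq_single ⟨b, hb⟩]
        · simp only [g, Pi.single_eq_same, LinearMap.comp_apply, LinearMap.proj_apply]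
          rw [Submodule.liftQ_apply, LinearMap.toSpanSingleton_apply, one_smul]
        · intro c _ hc
          simp [hc]
        · simp
      | zero => simp
      | add b c _ _ hb hc => simpa using add_mem hb hc
      | smul e b _ hb => simpa using Submodule.smul_mem _ e hb
    refine (Module.length_le_of_surjective G hG).trans_eq ?_
    rw [Module.length_pi]
    simp

end Vale.Agent.P202.Mixed
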