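import Mathlib

/-!
# P202 mixed characteristic: the kernel of an evaluation of power series at an integral element

Over a complete local integrally closed domain, evaluation at an integral element of the maximal
ideal has kernel generated by the minimal polynomial, by Weierstrass division.
-/

noncomputable section

namespace Vale.Agent.P202.Mixed

open IsLocalRing Polynomial

universe u

variable {R A : Type u} [CommRing R] [IsDomain R] [IsIntegrallyClosed R] [IsLocalRing R]
  [IsAdicComplete (maximalIdeal R) R] [CommRing A] [IsDomain A] [Algebra R A]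

omit [IsDomain R] [IsIntegrallyClosed R] [IsAdicComplete (maximalIdeal R) R] in
theorem map_residue_ne_zero_of_monic {μ : R[X]} (hμ : μ.Monic) :
    PowerSeries.map (IsLocalRing.residue R) (μ : PowerSeries R) ≠ 0 := fun h => by
  have h1 := congrArg (PowerSeries.coeff μ.natDegree) h
  rw [PowerSeries.coeff_map, Polynomial.coeff_coe, hμ.coeff_natDegree, map_one, map_zero] at h1
  exact one_ne_zero h1

/-- The kernel of evaluation at an integral element is spanned by its minimal polynomial. -/
theorem ker_evalPS_eq_span (hinj : Function.Injective (algebraMap R A)) {x : A}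
    (hx : IsIntegral R x) (Ψ : PowerSeries R →+* A)
    (hC : ∀ a, Ψ (PowerSeries.C a) = algebraMap R A a) (hX : Ψ PowerSeries.X = x) :
    RingHom.ker Ψ = Ideal.span {((minpoly R x : R[X]) : PowerSeries R)} := by
  have : FaithfulSMul R A := (faithfulSMul_iff_algebraMap_injective R A).2 hinj
  have : Module.IsTorsionFree R A := Module.isTorsionFree_iff_algebraMap_injective.2 hinj
  set μ := minpoly R x
  have hpoly : ∀ P : R[X], Ψ (P : PowerSeries R) = Polynomial.aeval x P := by
    intro P
    have h : Ψ.comp (Polynomial.coeToPowerSeries.ringHom (R := R)) =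
        (Polynomial.aeval x).toRingHom := Polynomial.ringHom_ext (fun a => by simp [hC])
          (by simp [hX])
    simpa using congrArg (fun φ : R[X] →+* A => φ P) h
  have hμ : μ.Monic := minpoly.monic hx
  have hne := map_residue_ne_zero_of_monic hμ
  set i := (PowerSeries.map (IsLocalRing.residue R) (μ : PowerSeries R)).order.toNat
  have hzero : Ψ (μ : PowerSeries R) = 0 := by rw [hpoly, minpoly.aeval]
  have hiN : i ≤ μ.natDegree := by
    refine ENat.toNat_le_of_le_natCast (PowerSeries.order_le _ ?_)
    rw [PowerSeries.coeff_map, Polynomial.coeff_coe, hμ.coeff_natDegree, map_one]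
    exact one_ne_zero
  -- the order of the reduction is the degree
  have hNi : μ.natDegree ≤ i := by
    obtain ⟨q, r, hdeg, heq⟩ := PowerSeries.exists_isWeierstrassDivision
      ((Polynomial.X ^ i : R[X]) : PowerSeries R) hne
    have h1 : Polynomial.aeval x (Polynomial.X ^ i - r) = 0 := by
      rw [← hpoly, Polynomial.coe_sub, heq, map_sub, map_add, map_mul, hzero, zero_mul, zero_add,
        sub_self]
    have hm : (Polynomial.X ^ i - r).Monic :=
      (monic_X_pow i).sub_of_left (by rw [degree_X_pow]; exact hdeg)
    have h2 := natDegree_le_natDegree (minpoly.min R x hm h1)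
    refine h2.trans (le_of_eq ?_)
    rw [natDegree_sub_eq_left_of_natDegree_lt]
    · exact natDegree_X_pow i
    · rcases eq_or_ne r 0 with rfl | hr
      · rw [natDegree_zero, natDegree_X_pow]
        by_contra hi
        have hi0 : i = 0 := by omega
        simp [hi0] at h1
      · rw [natDegree_X_pow]
        exact (natDegree_lt_iff_degree_lt hr).2 hdeg
  refine le_antisymm (fun f hf => ?_) ?_
  · obtain ⟨q, r, hdeg, heq⟩ := PowerSeries.exists_isWeierstrassDivision f hne
    have hr : Polynomial.aeval x r = 0 := by
      have h1 := congrArg Ψ heq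
      rw [RingHom.mem_ker.1 hf, map_add, map_mul, hzero, zero_mul, zero_add, hpoly] at h1
      exact h1.symm
    have hr0 : r = 0 := by
      refine Polynomial.eq_zero_of_dvd_of_degree_lt (minpoly.isIntegrallyClosed_dvd hx hr) ?_
      rw [Polynomial.degree_eq_natDegree hμ.ne_zero]
      exact hdeg.trans_le (by exact_mod_cast hiN)
    rw [hr0, Polynomial.coe_zero, add_zero] at heq
    exact Ideal.mem_span_singleton'.2 ⟨q, by rw [heq, mul_comm]⟩
  · rw [Ideal.span_le, Set.singleton_subset_iff]
    exact RingHom.mem_ker.2 hzero

end Vale.Agent.P202.Mixed
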