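import Vale.Agent.P202.Mixed.Source.Param
import Vale.Agent.P202.Mixed.Source.Kernel

/-!
# P202 mixed characteristic: the hypersurface of a parametrisation
-/

noncomputable section

namespace Vale.Agent.P202.Mixed

open IsLocalRing

universe u

variable {p : ℕ} [Fact p.Prime] {C : Type u} [CommRing C] [IsLocalRing C] {A : Type u}
  [CommRing A] [IsLocalRing A] [IsDomain A] {θ : C →+* A} {d : ℕ}

omit [Fact p.Prime] [IsLocalRing C] [IsDomain A] in
theorem Param.finite (S : Param p θ d) : S.φ.Finite :=
  RingHom.Finite.of_comp_finite S.base_finite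

omit [Fact p.Prime] [IsLocalRing A] [IsDomain A] in
/-- A series which is not zero is a power of `p` times one which is not divisible by `p`. -/
theorem exists_pow_mul_of_ne_zero (hC : IsCohen p C) {σ : Type*} {F : MvPowerSeries σ C}
    (hF : F ≠ 0) :
    ∃ (b : ℕ) (G : MvPowerSeries σ C), F = (p : MvPowerSeries σ C) ^ b * G ∧
      ∃ t, ¬ (p : C) ∣ MvPowerSeries.coeff t G := by
  classical
  have hex : ∃ k, ∃ t, ¬ (p : C) ^ (k + 1) ∣ MvPowerSeries.coeff t F := by
    by_contra h
    push Not at h
    refine hF (MvPowerSeries.ext fun t => ?_)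
    rw [map_zero]
    by_contra ht
    obtain ⟨k, u, hk⟩ := hC.eq_pow_mul_unit ht
    have := hC.le_of_pow_dvd u.isUnit (hk ▸ h k t)
    omega
  set b := Nat.find hex with hb
  have hdvd : ∀ t, (p : C) ^ b ∣ MvPowerSeries.coeff t F := by
    intro t
    rcases Nat.eq_zero_or_pos b with h | h
    · rw [h, pow_zero]
      exact one_dvd _
    · by_contra ht
      exact Nat.find_min hex (m := b - 1) (by omega) ⟨t, by rwa [show b - 1 + 1 = b by omega]⟩
  choose q hq using hdvd
  let G : MvPowerSeries σ C := fun t => q t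
  have hco : ∀ t, MvPowerSeries.coeff t G = q t := fun t => MvPowerSeries.coeff_apply G t
  have hCb : (p : MvPowerSeries σ C) ^ b = MvPowerSeries.C ((p : C) ^ b) := by
    rw [map_pow, map_natCast]
  refine ⟨b, G, MvPowerSeries.ext fun t => ?_, ?_⟩
  · rw [hCb, MvPowerSeries.coeff_C_mul, hco, ← hq]
  · obtain ⟨t, ht⟩ := Nat.find_spec hex
    refine ⟨t, fun hd => ht ?_⟩
    rw [← hb, pow_succ, hq t, ← hco]
    exact mul_dvd_mul_left _ hd

omit [Fact p.Prime] in
/-- The kernel of a parametrisation is principal, spanned by a series whose value at the origin is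
`p ^ D` times a unit and which is monic in the first variable modulo the maximal ideal. -/
theorem Param.exists_ker (S : Param p θ d) (hC : IsCohen p C) (hpm : (p : A) ∈ maximalIdeal A) :
    ∃ (g : MvPowerSeries (Fin (d + 1)) C) (D : ℕ), RingHom.ker S.φ = Ideal.span {g} ∧
      (∃ u : Cˣ, MvPowerSeries.constantCoeff g = (p : C) ^ D * (u : C)) ∧
      ∃ e : ℕ, ¬ (p : C) ∣ MvPowerSeries.coeff (Finsupp.single 0 e) g := by
  classical
  have := hC.isDomain
  have := hC.noetherian
  have := hC.complete
  let P' := MvPowerSeries (Fin d) C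
  let P := MvPowerSeries (Fin (d + 1)) C
  have : IsDomain P' := NoZeroDivisors.to_isDomain P'
  have : IsAdicComplete (maximalIdeal P') P' := isAdicComplete_mvPowerSeries
  have : IsIntegrallyClosed P' := (CIC.mvPowerSeries hC.cic d).isIntegrallyClosed
  let φ' : P' →+* A := S.φ.comp (incl C d)
  let := φ'.toAlgebra
  have : Module.Finite P' A := S.base_finite
  set e := MvPowerSeries.finSuccEquiv C d
  let Ψ : PowerSeries P' →+* A := S.φ.comp e.symm.toRingHom
  set x := S.φ (MvPowerSeries.X 0)
  have hx : IsIntegral P' x := IsIntegral.of_finite P' x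
  have hker := ker_evalPS_eq_span S.base_injective hx Ψ (fun a => rfl) (by
    show S.φ (e.symm PowerSeries.X) = x
    rw [show e.symm PowerSeries.X = MvPowerSeries.X 0 from
      e.symm_apply_eq.2 MvPowerSeries.finSuccEquiv_X_zero.symm])
  set μ := minpoly P' x
  set g : P := e.symm (μ : PowerSeries P')
  have hg : RingHom.ker S.φ = Ideal.span {g} := by
    ext f
    rw [RingHom.mem_ker, Ideal.mem_span_singleton]
    have h1 : S.φ f = Ψ (e f) := by
      show S.φ f = S.φ (e.symm (e f))
      rw [e.symm_apply_apply]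
    rw [h1, ← RingHom.mem_ker, hker, Ideal.mem_span_singleton]
    constructor
    · intro h
      have := map_dvd e.symm h
      rwa [e.symm_apply_apply] at this
    · intro h
      have := map_dvd e h
      rwa [e.apply_symm_apply] at this
  have hg0 : MvPowerSeries.constantCoeff g ≠ 0 := by
    intro h0
    let := S.φ.toAlgebra
    have : Module.Finite P A := S.finite
    let X₀ : Ideal P := RingHom.ker (MvPowerSeries.constantCoeff (σ := Fin (d + 1)) (R := C))
    have : X₀.IsPrime := RingHom.ker_isPrime _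
    have hle : (⊥ : Ideal A).comap (algebraMap P A) ≤ X₀ := by
      rw [← RingHom.ker_eq_comap_bot, RingHom.algebraMap_toAlgebra, hg, Ideal.span_singleton_le_iff_mem]
      exact RingHom.mem_ker.2 h0
    obtain ⟨Q, -, hQ, hQX⟩ := Ideal.exists_ideal_over_prime_of_isIntegral X₀ ⊥ hle
    obtain ⟨r, hr⟩ := S.φ_reduction
    have hJQ : Ideal.span (Set.range fun i => S.φ (MvPowerSeries.X i)) ≤ Q := by
      rw [Ideal.span_le]
      rintro _ ⟨i, rfl⟩
      have hXi : (MvPowerSeries.X i : P) ∈ Q.comap (algebraMap P A) := by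
        rw [hQX]
        exact RingHom.mem_ker.2 (MvPowerSeries.constantCoeff_X i)
      exact hXi
    have hmQ : maximalIdeal A ≤ Q :=
      Ideal.IsPrime.le_of_pow_le (hr.trans (Ideal.mul_le_left.trans hJQ))
    have hp : ((p : P)) ∈ Q.comap (algebraMap P A) := by
      rw [Ideal.mem_comap, map_natCast]
      exact hmQ hpm
    rw [hQX, RingHom.mem_ker, map_natCast] at hp
    exact hC.pow_ne_zero' 1 (by rw [pow_one]; exact hp)
  obtain ⟨D, u, hu⟩ := hC.eq_pow_mul_unit hg0
  refine ⟨g, D, hg, ⟨u, hu⟩, μ.natDegree, fun hd => hC.not_isUnit (isUnit_of_dvd_one ?_)⟩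
  have h1 : MvPowerSeries.coeff (Finsupp.single 0 μ.natDegree) g = 1 := by
    have h2 : (Finsupp.single 0 μ.natDegree : Fin (d + 1) →₀ ℕ) =
        Finsupp.cons μ.natDegree 0 := by
      ext i
      refine Fin.cases (by simp) (fun j => ?_) i
      rw [Finsupp.cons_succ, Finsupp.single_eq_of_ne (Fin.succ_ne_zero j)]
      rfl
    rw [h2, ← MvPowerSeries.coeff_coeff_finSuccEquiv, e.apply_symm_apply, Polynomial.coeff_coe,
      (minpoly.monic hx).coeff_natDegree]
    simp
  rwa [h1] at hd

end Vale.Agent.P202.Mixed
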