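import Vale.Agent.P202.Mixed.Interface
import Vale.Agent.P202.Mixed.Source.Hyper
import Vale.Agent.P202.Mixed.Source.Count

/-!
# P202 mixed characteristic: models of complete domains

The parametrisation gives a model; the graded pieces of the reduction bound the multiplicity by the
degree of the model.
-/

noncomputable section

namespace Vale.Agent.P202.Mixed

open IsLocalRing Filter Topology
open scoped ENNReal

universe u

theorem sup_pow_le_sup_pow {P : Type*} [CommRing P] (I X : Ideal P) (j : ℕ) :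
    (I ⊔ X) ^ j ≤ I ⊔ X ^ j := by
  have h : ((I ⊔ X) ^ j).map (Ideal.Quotient.mk I) = (X ^ j).map (Ideal.Quotient.mk I) := by
    rw [Ideal.map_pow, Ideal.map_pow, Ideal.map_sup, Ideal.map_quotient_self, bot_sup_eq]
  have h2 := (Ideal.le_comap_map (f := Ideal.Quotient.mk I) (I := (I ⊔ X) ^ j))
  rwa [h, Ideal.comap_map_of_surjective' _ Ideal.Quotient.mk_surjective, Ideal.mk_ker,
    sup_comm (X ^ j)] at h2

/-- Lengths modulo powers of the variables are at most a binomial times that modulo the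
variables. -/
theorem length_quotient_sup_pow_le {P : Type u} [CommRing P] {n : ℕ} (I : Ideal P) (x : Fin n → P)
    (N : ℕ) :
    Module.length P (P ⧸ (I ⊔ Ideal.span (Set.range x) ^ N)) ≤
      (monCount n N : ℕ∞) * Module.length P (P ⧸ (I ⊔ Ideal.span (Set.range x))) := by
  have key : ∀ X : Ideal P, I ⊔ X = (X.map (Ideal.Quotient.mk I)).comap (Ideal.Quotient.mk I) := by
    intro X
    rw [Ideal.comap_map_of_surjective' _ Ideal.Quotient.mk_surjective, Ideal.mk_ker, sup_comm]
  rw [key, key (Ideal.span (Set.range x)), length_quotient_comap _ Ideal.Quotient.mk_surjective,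
    length_quotient_comap _ Ideal.Quotient.mk_surjective, Ideal.map_pow, Ideal.map_span,
    ← Set.range_comp]
  exact length_quotient_span_pow_le _ N

/-- A sequence bounded by a main term and one of lower order has the main term as a bound for the
normalised upper limit. -/
theorem limsup_hsSeq_le_of_bound {A : Type*} [CommRing A] [IsLocalRing A] {d D K : ℕ}
    (hd : dimNat A = d + 1)
    (h : ∀ N, Module.length A (A ⧸ maximalIdeal A ^ N) ≤
      ((monCount (d + 1) N * D + K * (N + 1) ^ d : ℕ) : ℕ∞)) :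
    limsup (hsSeq A) atTop ≤ (D : ℝ≥0∞) := by
  have hb : ∀ᶠ N : ℕ in atTop, hsSeq A N ≤
      (D : ℝ≥0∞) * (((N + (d + 1) : ℕ) : ℝ≥0∞) ^ (d + 1) / (N : ℝ≥0∞) ^ (d + 1)) +
        (((d + 1).factorial * K : ℕ) : ℝ≥0∞) *
          ((((N + 1 : ℕ) : ℝ≥0∞) ^ d / (N : ℝ≥0∞) ^ d) * (N : ℝ≥0∞)⁻¹) := by
    filter_upwards [eventually_gt_atTop 0] with N hN
    have hN0 : (N : ℝ≥0∞) ≠ 0 := by exact_mod_cast hN.ne'
    have hNd : (N : ℝ≥0∞) ^ d ≠ 0 := pow_ne_zero _ hN0
    rw [hsSeq, hd]
    have h1 : ((Module.length A (A ⧸ maximalIdeal A ^ N) : ℕ∞) : ℝ≥0∞) ≤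
        ((monCount (d + 1) N * D + K * (N + 1) ^ d : ℕ) : ℝ≥0∞) := by
      have := ENat.toENNReal_le.2 (h N)
      rwa [ENat.toENNReal_coe] at this
    calc ((d + 1).factorial : ℝ≥0∞) * ((Module.length A (A ⧸ maximalIdeal A ^ N) : ℕ∞) : ℝ≥0∞) /
          (N : ℝ≥0∞) ^ (d + 1)
        ≤ ((d + 1).factorial : ℝ≥0∞) *
            ((monCount (d + 1) N * D + K * (N + 1) ^ d : ℕ) : ℝ≥0∞) / (N : ℝ≥0∞) ^ (d + 1) :=
          ENNReal.div_le_div_right (mul_le_mul' le_rfl h1) _
      _ = ((((d + 1).factorial * monCount (d + 1) N) * D : ℕ) : ℝ≥0∞) / (N : ℝ≥0∞) ^ (d + 1) +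
            ((((d + 1).factorial * K) * (N + 1) ^ d : ℕ) : ℝ≥0∞) / (N : ℝ≥0∞) ^ (d + 1) := by
          rw [ENNReal.div_add_div_same]
          congr 1
          push_cast
          ring
      _ ≤ (((N + (d + 1)) ^ (d + 1) * D : ℕ) : ℝ≥0∞) / (N : ℝ≥0∞) ^ (d + 1) +
            ((((d + 1).factorial * K) * (N + 1) ^ d : ℕ) : ℝ≥0∞) / (N : ℝ≥0∞) ^ (d + 1) :=
          add_le_add (ENNReal.div_le_div_right (Nat.cast_le.2
            (Nat.mul_le_mul_right _ (factorial_mul_monCount_le (d + 1) N))) _) le_rfl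
      _ = _ := by
          congr 1
          · rw [← mul_div_assoc, Nat.cast_mul, Nat.cast_pow, mul_comm]
          · rw [Nat.cast_mul, Nat.cast_pow, pow_succ (N : ℝ≥0∞) d, div_eq_mul_inv, div_eq_mul_inv,
              ENNReal.mul_inv (Or.inl hNd) (Or.inl (ENNReal.pow_ne_top (ENNReal.natCast_ne_top N)))]
            ring
  refine (limsup_le_limsup hb).trans_eq ?_
  have t1 := ENNReal.Tendsto.const_mul (tendsto_add_pow_div_pow (d + 1) (d + 1))
    (Or.inl one_ne_zero) (a := (D : ℝ≥0∞))
  have t2 := ENNReal.Tendsto.const_mul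
    (ENNReal.Tendsto.mul (tendsto_add_pow_div_pow 1 d) (Or.inl one_ne_zero)
      ENNReal.tendsto_inv_nat_nhds_zero (Or.inr ENNReal.one_ne_top))
    (Or.inr (ENNReal.natCast_ne_top ((d + 1).factorial * K)))
  rw [mul_one] at t1
  rw [mul_zero, mul_zero] at t2
  simpa using (t1.add t2).limsup_eq

variable {p : ℕ} {C : Type u} [CommRing C] [IsLocalRing C] {A : Type u}
  [CommRing A] [IsLocalRing A] [IsDomain A] {θ : C →+* A} {d : ℕ}

/-- A parametrisation gives a model whose degree bounds the multiplicity. -/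
theorem Param.exists_model (S : Param p θ d) (hC : IsCohen p C) (hpm : (p : A) ∈ maximalIdeal A)
    (hθ : ∀ a, ∃ c, a - θ c ∈ maximalIdeal A) (hd : dimNat A = d + 1) :
    ∃ (_ : Algebra (MvPowerSeries (Fin (d + 1)) C) A) (D : ℕ),
      (∀ c, algebraMap (MvPowerSeries (Fin (d + 1)) C) A (MvPowerSeries.C c) = θ c) ∧
      Nonempty (Model p A (C := C) (d := d) D) ∧ limsup (hsSeq A) atTop ≤ (D : ℝ≥0∞) := by
  classical
  have := hC.isDomain
  have := hC.noetherian
  obtain ⟨g, D, hker, ⟨u, hu⟩, hreg⟩ := S.exists_ker hC hpm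
  obtain ⟨b, G₀, hden, t₀, ht₀⟩ := exists_pow_mul_of_ne_zero hC S.den_ne
  let P := MvPowerSeries (Fin (d + 1)) C
  have : IsDomain P := NoZeroDivisors.to_isDomain P
  have : IsNoetherianRing P := inferInstance
  set X : Ideal P := Ideal.span (Set.range (MvPowerSeries.X : Fin (d + 1) → P))
  set h : P := (p : P) ^ b * incl C d G₀ with hh
  have hincl : incl C d S.den = h := by rw [hden, map_mul, map_pow, map_natCast]
  let I : Ideal P := Ideal.span {g, h}
  have hI : I = Ideal.span {g} ⊔ Ideal.span {h} := Ideal.span_insert g {h}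
  -- `p ^ D` lies in `(g) ⊔ (X)`
  have hpD : Ideal.span {(p : P) ^ D} ⊔ X ≤ Ideal.span {g} ⊔ X := by
    refine sup_le ?_ le_sup_right
    have h1 : (p : P) ^ D = (MvPowerSeries.C (↑u⁻¹ : C)) *
        (g - (g - MvPowerSeries.C (MvPowerSeries.constantCoeff g))) := by
      rw [sub_sub_cancel, hu, map_mul, map_pow, map_natCast, mul_comm ((p : P) ^ D), ← mul_assoc,
        ← map_mul, Units.inv_mul, map_one, one_mul]
    rw [Ideal.span_singleton_le_iff_mem, h1]
    exact Ideal.mul_mem_left _ _ (sub_mem (Ideal.mem_sup_left (Ideal.mem_span_singleton_self g))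
      (Ideal.mem_sup_right (sub_C_constantCoeff_mem_span_X g)))
  have hMD : maximalIdeal P ^ D ≤ I ⊔ X := by
    rw [maximalIdeal_series hC, sup_comm (Ideal.span {(p : P)})]
    refine (sup_pow_le_sup_pow X (Ideal.span {(p : P)}) D).trans ?_
    rw [Ideal.span_singleton_pow, sup_comm]
    exact hpD.trans (sup_le_sup_right (Ideal.span_mono (by simp)) _)
  -- the dimension of the bad locus
  have hφh : S.φ h ≠ 0 := by
    rw [← hincl, ← RingHom.comp_apply]
    exact fun e => S.den_ne ((map_eq_zero_iff _ S.base_injective).1 e)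
  have hg0 : g ≠ 0 := fun e => by
    obtain ⟨n, hn⟩ := hreg
    exact hn (by rw [e, map_zero]; exact dvd_zero _)
  have hdimI : ringKrullDim (P ⧸ I) ≤ (d : WithBot ℕ∞) := by
    have h1 : ringKrullDim (P ⧸ Ideal.span {g}) ≤ ((d + 1 : ℕ) : WithBot ℕ∞) := by
      refine le_of_add_one_le_add_one
        ((ringKrullDim_quotient_succ_le_of_forall_notMem fun q hq => ?_).trans
          (ringKrullDim_series_le hC (d + 1)))
      rw [IsDomain.minimalPrimes_eq_singleton_bot P, Set.mem_singleton_iff] at hq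
      rw [hq, Ideal.mem_bot]
      exact hg0
    have : (Ideal.span {g}).IsPrime := hker ▸ RingHom.ker_isPrime S.φ
    rw [hI, ← ringKrullDim_eq_of_ringEquiv (DoubleQuot.quotQuotEquivQuotSup _ (Ideal.span {h})),
      Ideal.map_span, Set.image_singleton]
    refine le_of_add_one_le_add_one ((ringKrullDim_quotient_succ_le_of_forall_notMem
      fun q hq => ?_).trans h1)
    rw [IsDomain.minimalPrimes_eq_singleton_bot (P ⧸ Ideal.span {g}),
      Set.mem_singleton_iff] at hq
    rw [hq, Ideal.mem_bot, Ideal.Quotient.eq_zero_iff_mem, ← hker, RingHom.mem_ker]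
    exact hφh
  obtain ⟨c₀, hc₀⟩ := exists_length_sup_pow_le I X hMD hdimI
  let := S.φ.toAlgebra
  refine ⟨S.φ.toAlgebra, D, S.φ_C, ⟨?_⟩, ?_⟩
  · refine
      { g := g
        G := incl C d G₀
        b := b
        finite := S.finite
        residue_surj := fun a => ?_
        x_mem := S.φ_mem
        ker_eq := hker
        g_const := ⟨u, hu⟩
        g_regular := hreg
        G_indep := fun t ht => by rw [coeff_incl, if_neg ht]
        G_nonzero := ⟨Finsupp.cons 0 t₀, by
          rw [coeff_incl, Finsupp.cons_zero, if_pos rfl, Finsupp.tail_cons]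
          exact ht₀⟩
        cokilled := fun a => ?_
        reduction := S.φ_reduction
        small := ⟨c₀, fun j => ?_⟩ }
    · obtain ⟨c, hc⟩ := hθ a
      exact ⟨c, by rw [RingHom.algebraMap_toAlgebra, S.φ_C]; exact hc⟩
    · obtain ⟨π, hπ⟩ := S.den_spec a
      exact ⟨π, by rw [RingHom.algebraMap_toAlgebra, hπ, hincl]⟩
    · refine (mul_le_mul' (hc₀ j) le_rfl).trans_eq ?_
      rw [← Nat.cast_mul, ← Nat.cast_mul, pow_succ, mul_assoc]
  · have : Module.Finite P A := S.finite
    obtain ⟨s, hs⟩ := Module.finite_def.1 (inferInstance : Module.Finite P A)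
    refine limsup_hsSeq_le_of_bound hd (D := D) (K := s.card * c₀) fun N => ?_
    set J := Ideal.span (Set.range fun i => S.φ (MvPowerSeries.X i))
    have hJm : J ≤ maximalIdeal A := Ideal.span_le.2 (by rintro _ ⟨i, rfl⟩; exact S.φ_mem i)
    have hXJ : X ^ N ≤ (J ^ N).comap (algebraMap P A) := by
      rw [← Ideal.map_le_iff_le_comap, Ideal.map_pow, Ideal.map_span, ← Set.range_comp]
      exact le_rfl
    have hgJ : ∀ c ∈ Ideal.span {g}, algebraMap P A c = 0 := fun c hc => by
      rw [← hker] at hc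
      exact hc
    refine (length_quotient_mono (Ideal.pow_right_mono hJm N)).trans ?_
    refine (length_quotient_le_add s hs (I := Ideal.span {g} ⊔ X ^ N) (I' := I ⊔ X ^ N)
      (sup_le (fun c hc => by rw [Ideal.mem_comap, hgJ c hc]; exact zero_mem _) hXJ)
      fun c hc a => ?_).trans ?_
    · obtain ⟨e, he, f, hf, rfl⟩ := Submodule.mem_sup.1 hc
      obtain ⟨k, l, rfl⟩ := Ideal.mem_span_pair.1 he
      obtain ⟨π, hπ⟩ := S.den_spec a
      refine ⟨l * π, ?_⟩
      rw [Algebra.smul_def, map_add, map_add, map_mul _ k g, map_mul _ l h, map_mul _ l π,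
        hgJ g (Ideal.mem_span_singleton_self g), ← hincl]
      simp only [RingHom.algebraMap_toAlgebra] at hπ ⊢
      rw [hπ, show (S.φ k * 0 + S.φ l * S.φ (incl C d S.den) + S.φ f) * a -
        S.φ l * (S.φ (incl C d S.den) * a) = S.φ f * a by ring]
      exact Ideal.mul_mem_right _ _ (hXJ hf)
    · rw [Nat.cast_add]
      refine add_le_add ?_ ?_
      · refine (length_quotient_sup_pow_le _ _ N).trans ?_
        rw [Nat.cast_mul]
        refine mul_le_mul' le_rfl ((length_quotient_mono hpD).trans ?_)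
        exact length_quotient_pow_sup_le _ _ (maximalIdeal_series hC).le D
      · refine (mul_le_mul' le_rfl (hc₀ N)).trans_eq ?_
        rw [← Nat.cast_mul, mul_assoc]

/-- Every complete domain of mixed characteristic has a model bounding its multiplicity. -/
theorem sourceStatement : SourceStatement.{u} := by
  intro p _ C _ _ hC A _ _ _ _ _ _ hp0 hpm θ _ hθ d hd
  obtain ⟨S⟩ := exists_param hC hp0 hpm θ hθ hd
  exact S.exists_model hC hpm hθ hd

end Vale.Agent.P202.Mixed
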