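import Vale.Agent.P202.Mixed.Source.Series
import Vale.Agent.P202.RingSide.Complete

/-!
# P202 mixed characteristic: tools for homomorphisms from power series over a Cohen ring
-/

noncomputable section

namespace Vale.Agent.P202.Mixed

open IsLocalRing

universe u

/-- A local homomorphism from a complete local ring onto the residue field whose maximal ideal
extends to a primary ideal of a Noetherian local ring is finite. -/
theorem finite_of_localHom {P R : Type*} [CommRing P] [IsLocalRing P]
    [IsAdicComplete (maximalIdeal P) P] [CommRing R] [IsLocalRing R] [IsNoetherianRing R]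
    (φ : P →+* R) (hres : ∀ a, ∃ c, a - φ c ∈ maximalIdeal R)
    (hm : (maximalIdeal P).map φ ≤ maximalIdeal R) {r : ℕ}
    (hr : maximalIdeal R ^ r ≤ (maximalIdeal P).map φ) : φ.Finite := by
  classical
  let := φ.toAlgebra
  show Module.Finite P R
  set I := maximalIdeal P
  have hsmul : ∀ n, (I ^ n • ⊤ : Submodule P R) = (I.map φ ^ n).restrictScalars P := fun n => by
    rw [Ideal.smul_top_eq_map, ← Ideal.map_pow]
    rfl
  have : IsHausdorff I R := ⟨fun a ha => IsHausdorff.haus' (I := maximalIdeal R) a fun n => by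
    rw [SModEq.zero, smul_eq_mul, Ideal.mul_top]
    have h := SModEq.zero.1 (ha n)
    rw [hsmul, Submodule.restrictScalars_mem] at h
    exact Ideal.pow_right_mono hm n h⟩
  obtain ⟨s, hs⟩ := exists_finset_span_mod_pow φ hres r
  let f : (s → P) →ₗ[P] R :=
    ∑ g : s, (LinearMap.toSpanSingleton P R (g : R)).comp (LinearMap.proj g)
  have hfv : ∀ v, f v = ∑ g : s, φ (v g) * (g : R) := fun v => by
    simp [f, Algebra.smul_def, RingHom.algebraMap_toAlgebra]
  have := isPrecomplete_pi (I := I) (R := P) s
  refine Module.Finite.of_surjective f (surjective_of_mkQ_comp_surjective (I := I) ?_)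
  intro y
  obtain ⟨a, rfl⟩ := Submodule.mkQ_surjective _ y
  obtain ⟨c, hc⟩ := hs a
  refine ⟨fun g => c g, ?_⟩
  rw [LinearMap.comp_apply, Submodule.mkQ_apply, Submodule.mkQ_apply, eq_comm,
    Submodule.Quotient.eq, ← pow_one I, hsmul, Submodule.restrictScalars_mem, pow_one, hfv,
    Finset.sum_coe_sort s fun g => φ (c g) * g]
  exact hr hc

/-- Homomorphisms from power series sending the variables into the maximal ideal of a separated
local ring are determined by their values on constants and variables. -/
theorem series_hom_ext {σ k R : Type*} [Finite σ] [CommRing k] [CommRing R] [IsLocalRing R]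
    [IsHausdorff (maximalIdeal R) R] (f g : MvPowerSeries σ k →+* R)
    (hC : ∀ c, f (MvPowerSeries.C c) = g (MvPowerSeries.C c))
    (hX : ∀ i, f (MvPowerSeries.X i) = g (MvPowerSeries.X i))
    (hm : ∀ i, g (MvPowerSeries.X i) ∈ maximalIdeal R) : f = g := by
  have hpoly : f.comp MvPolynomial.coeToMvPowerSeries.ringHom =
      g.comp MvPolynomial.coeToMvPowerSeries.ringHom :=
    MvPolynomial.ringHom_ext (fun c => by simp [hC]) (fun i => by simp [hX])
  refine RingHom.ext fun F => eq_of_sub_eq_zero (IsHausdorff.haus' (I := maximalIdeal R) _ fun n => ?_)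
  rw [SModEq.zero, smul_eq_mul, Ideal.mul_top]
  set T : MvPowerSeries σ k := (MvPowerSeries.truncTotal n F : MvPowerSeries σ k)
  have hT : f T = g T := by
    simpa [T] using congrArg (fun φ => φ (MvPowerSeries.truncTotal n F)) hpoly
  have hmem : F - T ∈ Ideal.span (Set.range (MvPowerSeries.X : σ → MvPowerSeries σ k)) ^ n :=
    mem_span_X_pow fun t ht => by simp [T, MvPowerSeries.coeff_truncTotal _ ht]
  have hmap : ∀ φ : MvPowerSeries σ k →+* R, (∀ i, φ (MvPowerSeries.X i) ∈ maximalIdeal R) →
      φ (F - T) ∈ maximalIdeal R ^ n := fun φ hφ => by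
    refine Ideal.pow_right_mono ?_ n
      ((Ideal.map_pow φ _ n).le (Ideal.mem_map_of_mem φ hmem))
    rw [Ideal.map_span, Ideal.span_le]
    rintro _ ⟨_, ⟨i, rfl⟩, rfl⟩
    exact hφ i
  have h := Ideal.sub_mem _ (hmap f fun i => hX i ▸ hm i) (hmap g hm)
  rwa [map_sub, map_sub, hT, sub_sub_sub_cancel_right] at h

section Cohen

variable {p : ℕ} {C : Type u} [CommRing C] [IsLocalRing C] {σ : Type*} [Finite σ]

theorem maximalIdeal_series (hC : IsCohen p C) :
    maximalIdeal (MvPowerSeries σ C) = Ideal.span {(p : MvPowerSeries σ C)} ⊔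
      Ideal.span (Set.range (MvPowerSeries.X : σ → MvPowerSeries σ C)) := by
  refine le_antisymm (fun F hF => ?_) (sup_le ?_ ?_)
  · have h0 : MvPowerSeries.constantCoeff F ∈ maximalIdeal C :=
      (mem_maximalIdeal _).2 fun h => (mem_maximalIdeal F).1 hF
        (MvPowerSeries.isUnit_iff_constantCoeff.2 h)
    rw [hC.max_eq, Ideal.mem_span_singleton'] at h0
    obtain ⟨a, ha⟩ := h0
    rw [← sub_add_cancel F (MvPowerSeries.C (MvPowerSeries.constantCoeff F))]
    refine add_mem (Ideal.mem_sup_right (sub_C_constantCoeff_mem_span_X F)) (Ideal.mem_sup_left ?_)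
    rw [← ha, map_mul, map_natCast]
    exact Ideal.mem_span_singleton'.2 ⟨_, rfl⟩
  · rw [Ideal.span_singleton_le_iff_mem]
    exact (mem_maximalIdeal _).2 fun h => hC.not_isUnit (by
      simpa using MvPowerSeries.isUnit_iff_constantCoeff.1 h)
  · rw [Ideal.span_le]
    rintro _ ⟨i, rfl⟩
    exact (mem_maximalIdeal _).2 fun h => by
      simpa using MvPowerSeries.isUnit_iff_constantCoeff.1 h

theorem ringKrullDim_series_le (hC : IsCohen p C) (n : ℕ) :
    ringKrullDim (MvPowerSeries (Fin n) C) ≤ ((n + 1 : ℕ) : WithBot ℕ∞) := by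
  classical
  have := hC.noetherian
  refine (ringKrullDim_le_spanFinrank_maximalIdeal (R := _)).trans ?_
  have h : (maximalIdeal (MvPowerSeries (Fin n) C)).spanFinrank ≤ n + 1 := by
    rw [maximalIdeal_series hC, ← Ideal.span_union]
    refine (Submodule.spanFinrank_span_le_ncard_of_finite
      ((Set.finite_singleton _).union (Set.finite_range _))).trans
        ((Set.ncard_union_le _ _).trans ?_)
    rw [Set.ncard_singleton, add_comm]
    refine Nat.add_le_add_right ?_ 1
    rw [← Set.image_univ]
    exact (Set.ncard_image_le (Set.finite_univ)).trans (by simp)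
  exact_mod_cast h

theorem IsCohen.charZero [hp : Fact p.Prime] (hC : IsCohen p C) : CharZero C := by
  refine charZero_of_inj_zero fun n hn => ?_
  by_contra hn0
  obtain ⟨k, m, hm, rfl⟩ := Nat.exists_eq_pow_mul_and_not_dvd hn0 p hp.out.ne_one
  have hu : IsUnit (m : C) := by
    obtain ⟨a, b, hab⟩ := Int.isCoprime_iff_nat_coprime.2
      (show (p : ℤ).natAbs.Coprime (m : ℤ).natAbs by
        simpa using (Nat.Prime.coprime_iff_not_dvd hp.out).2 hm)
    have h1 := congrArg (fun z : ℤ => (z : C)) hab
    simp only [Int.cast_add, Int.cast_mul, Int.cast_natCast, Int.cast_one] at h1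
    by_contra hu
    have h2 : (1 : C) ∈ maximalIdeal C := h1 ▸ add_mem (Ideal.mul_mem_left _ _
      ((mem_maximalIdeal _).2 hC.not_isUnit)) (Ideal.mul_mem_left _ _ ((mem_maximalIdeal _).2 hu))
    exact (mem_maximalIdeal _).1 h2 isUnit_one
  rw [Nat.cast_mul, Nat.cast_pow, hu.mul_left_eq_zero] at hn
  exact hC.pow_ne_zero' k hn

end Cohen

theorem charZero_series {σ R : Type*} [CommRing R] [CharZero R] : CharZero (MvPowerSeries σ R) :=
  charZero_of_injective_ringHom (f := MvPowerSeries.C) fun a b h => by
    simpa using congrArg MvPowerSeries.constantCoeff h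

end Vale.Agent.P202.Mixed
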