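import Vale.Agent.P202.Mixed.Source.Main

/-!
# P202 mixed characteristic: the degree of a model bounds the multiplicity from below

The hypersurface of a model has exactly the expected lengths along the variables, and differs from
the ring by a module killed by `Model.h`.
-/

noncomputable section

namespace Vale.Agent.P202.Mixed

open IsLocalRing Filter Topology
open scoped ENNReal

universe u

/-- Along a local map onto the residue field the length over the source of a module of finite
length is at most the length over the target. -/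
theorem length_restrict_le {P B : Type u} [CommRing P] [CommRing B] [IsLocalRing P] [IsLocalRing B]
    [Algebra P B] [IsLocalHom (algebraMap P B)]
    (hres : ∀ b : B, ∃ c : P, b - algebraMap P B c ∈ maximalIdeal B)
    {M : Type u} [AddCommGroup M] [Module B M] [Module P M] [IsScalarTower P B M]
    (hM : IsFiniteLength B M) : Module.length P M ≤ Module.length B M := by
  suffices H : ∀ (M : Type u) (_ : AddCommGroup M) (_ : Module B M), IsFiniteLength B M →
      ∀ [Module P M] [IsScalarTower P B M], Module.length P M ≤ Module.length B M from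
    H M _ _ hM
  intro M _ _ hM
  induction hM with
  | of_subsingleton => intro _ _; simp [Module.length_eq_zero]
  | @of_simple_quotient M _ _ N hN hfin ih =>
    intro _ _
    have h1 := Module.length_eq_add_of_exact (R := P) (N.subtype.restrictScalars P)
      (N.mkQ.restrictScalars P) N.subtype_injective N.mkQ_surjective (LinearMap.exact_subtype_mkQ N)
    have h2 := Module.length_eq_add_of_exact (R := B) N.subtype N.mkQ N.subtype_injective
      N.mkQ_surjective (LinearMap.exact_subtype_mkQ N)
    rw [h1, h2]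
    refine add_le_add ih ?_
    rw [Module.length_eq_one B (M ⧸ N)]
    obtain ⟨I, hI, ⟨e⟩⟩ := isSimpleModule_iff_quot_maximal.1 hN
    obtain rfl := IsLocalRing.eq_maximalIdeal hI
    have e' : (M ⧸ N) ≃ₗ[P] B ⧸ maximalIdeal B := e.restrictScalars P
    rw [e'.length_eq]
    let ψ : P →ₗ[P] B ⧸ maximalIdeal B :=
      ((maximalIdeal B).mkQ.restrictScalars P).comp (Algebra.linearMap P B)
    have hψ : Function.Surjective ψ := fun y => by
      obtain ⟨b, rfl⟩ := Submodule.mkQ_surjective _ y
      obtain ⟨c, hc⟩ := hres b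
      exact ⟨c, ((Submodule.Quotient.eq (maximalIdeal B)).2 hc).symm⟩
    have hker : maximalIdeal P ≤ LinearMap.ker ψ := fun c hc =>
      LinearMap.mem_ker.2 ((Submodule.Quotient.mk_eq_zero _).2
        ((mem_maximalIdeal _).2 fun h => (mem_maximalIdeal c).1 hc (IsUnit.of_map (algebraMap P B) c h)))
    refine (Module.length_le_of_surjective ((maximalIdeal P).liftQ ψ hker) fun y => ?_).trans_eq ?_
    · obtain ⟨c, rfl⟩ := hψ y
      exact ⟨Submodule.Quotient.mk c, rfl⟩
    · have : IsSimpleModule P (P ⧸ maximalIdeal P) := by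
        rw [isSimpleModule_iff_isCoatom]
        exact (maximalIdeal.isMaximal P).out
      exact Module.length_eq_one P _

/-- Modulo an ideal of finite colength the elements killed by `h` are no longer than the
quotient by `h`. -/
theorem length_colon_le {P : Type u} [CommRing P] {Q K : Ideal P} (h : P)
    (hfin : Module.length P (P ⧸ Q) ≠ ⊤) (hK : ∀ c ∈ K, h * c ∈ Q) :
    Module.length P (Submodule.map Q.mkQ K) ≤ Module.length P (P ⧸ (Q ⊔ Ideal.span {h})) := by
  set μ : (P ⧸ Q) →ₗ[P] P ⧸ Q := h • LinearMap.id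
  have hle : Submodule.map Q.mkQ K ≤ LinearMap.ker μ := by
    rintro _ ⟨c, hc, rfl⟩
    show h • Submodule.Quotient.mk c = (0 : P ⧸ Q)
    rw [← Submodule.Quotient.mk_smul, Submodule.Quotient.mk_eq_zero, smul_eq_mul]
    exact hK c hc
  refine (Module.length_le_of_injective _ (Submodule.inclusion_injective hle)).trans ?_
  have e1 := Module.length_eq_add_of_exact (LinearMap.ker μ).subtype μ.rangeRestrict
    (Submodule.subtype_injective _) μ.surjective_rangeRestrict (fun x => by
      rw [← LinearMap.mem_ker, LinearMap.ker_rangeRestrict]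
      exact ⟨fun hx => ⟨⟨x, hx⟩, rfl⟩, by rintro ⟨y, rfl⟩; exact y.2⟩)
  have e2 := Module.length_eq_add_of_exact (LinearMap.range μ).subtype (LinearMap.range μ).mkQ
    (Submodule.subtype_injective _) (Submodule.mkQ_surjective _) (LinearMap.exact_subtype_mkQ _)
  have hr : Module.length P (LinearMap.range μ) ≠ ⊤ :=
    ne_top_of_le_ne_top hfin (Module.length_le_of_injective _ (Submodule.subtype_injective _))
  have e3 : Module.length P (LinearMap.ker μ) =
      Module.length P ((P ⧸ Q) ⧸ LinearMap.range μ) := by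
    have h1 := e1.symm.trans e2
    rw [add_comm] at h1
    exact WithTop.add_left_cancel hr h1
  rw [e3]
  refine Module.length_le_of_surjective
    ((Q ⊔ Ideal.span {h}).liftQ ((LinearMap.range μ).mkQ.comp Q.mkQ) (sup_le ?_ ?_)) ?_
  · intro c hc
    rw [LinearMap.mem_ker, LinearMap.comp_apply,
      show Q.mkQ c = 0 from (Submodule.Quotient.mk_eq_zero Q).2 hc, map_zero]
  · rw [Ideal.span_singleton_le_iff_mem, LinearMap.mem_ker, LinearMap.comp_apply,
      Submodule.mkQ_apply, Submodule.Quotient.mk_eq_zero]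
    exact ⟨Submodule.Quotient.mk 1, by
      simp only [μ, LinearMap.smul_apply, LinearMap.id_apply, Submodule.mkQ_apply]
      rw [← Submodule.Quotient.mk_smul, smul_eq_mul, mul_one]⟩
  · intro y
    obtain ⟨z, rfl⟩ := Submodule.mkQ_surjective _ y
    obtain ⟨c, rfl⟩ := Submodule.mkQ_surjective Q z
    exact ⟨Submodule.Quotient.mk c, rfl⟩

section Hypersurface

variable {σ R : Type*} [CommRing R]

theorem coeff_eq_zero_of_mem_span_X_pow {n : ℕ} {F : MvPowerSeries σ R}
    (hF : F ∈ Ideal.span (Set.range (MvPowerSeries.X : σ → MvPowerSeries σ R)) ^ n) :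
    ∀ t : σ →₀ ℕ, t.degree < n → MvPowerSeries.coeff t F = 0 := by
  classical
  induction n generalizing F with
  | zero => simp
  | succ n ih =>
    rw [pow_succ] at hF
    refine Submodule.mul_induction_on hF (fun G hG H hH t ht => ?_)
      (fun G H hG hH t ht => by rw [map_add, hG t ht, hH t ht, add_zero])
    rw [MvPowerSeries.coeff_mul]
    refine Finset.sum_eq_zero fun uv huv => ?_
    rw [Finset.HasAntidiagonal.mem_antidiagonal] at huv
    rw [← huv, map_add] at ht
    by_cases hu : uv.1.degree < n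
    · rw [ih hG _ hu, zero_mul]
    · have hv : uv.2 = 0 := (Finsupp.degree_eq_zero_iff _).1 (by omega)
      have h0 : MvPowerSeries.constantCoeff H = 0 := by
        have hle : Ideal.span (Set.range (MvPowerSeries.X : σ → MvPowerSeries σ R)) ≤
            RingHom.ker (MvPowerSeries.constantCoeff (σ := σ) (R := R)) := by
          rw [Ideal.span_le]
          rintro _ ⟨i, rfl⟩
          exact RingHom.mem_ker.2 (MvPowerSeries.constantCoeff_X i)
        exact RingHom.mem_ker.1 (hle hH)
      rw [hv, MvPowerSeries.coeff_zero_eq_constantCoeff_apply, h0, mul_zero]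

/-- The lowest coefficients of a product with a series whose constant term is regular. -/
theorem coeff_mul_of_low {g a : MvPowerSeries σ R} {n : ℕ}
    (ha : ∀ t : σ →₀ ℕ, t.degree < n → MvPowerSeries.coeff t a = 0) {t : σ →₀ ℕ}
    (ht : t.degree ≤ n) :
    MvPowerSeries.coeff t (g * a) = MvPowerSeries.constantCoeff g * MvPowerSeries.coeff t a := by
  classical
  rw [MvPowerSeries.coeff_mul, Finset.sum_eq_single ((0, t) : (σ →₀ ℕ) × (σ →₀ ℕ))]
  · rw [MvPowerSeries.coeff_zero_eq_constantCoeff_apply]
  · intro x hx hne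
    rw [Finset.HasAntidiagonal.mem_antidiagonal] at hx
    have hdeg : x.1.degree + x.2.degree = t.degree := by rw [← map_add, hx]
    have h1 : x.1.degree ≠ 0 := fun e => by
      have h2 := (Finsupp.degree_eq_zero_iff _).1 e
      exact hne (Prod.ext h2 (by rw [← hx, h2, zero_add]))
    rw [ha x.2 (by omega), mul_zero]
  · intro h
    exact absurd (Finset.HasAntidiagonal.mem_antidiagonal.2 (zero_add t)) h

/-- Multiplication by a series with regular constant term reflects vanishing in low degree. -/
theorem coeff_eq_zero_of_mul [IsDomain R] {g a : MvPowerSeries σ R}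
    (hg : MvPowerSeries.constantCoeff g ≠ 0) {n : ℕ}
    (h : ∀ t : σ →₀ ℕ, t.degree < n → MvPowerSeries.coeff t (g * a) = 0) :
    ∀ t : σ →₀ ℕ, t.degree < n → MvPowerSeries.coeff t a = 0 := by
  induction n with
  | zero => exact fun t ht => absurd ht (Nat.not_lt_zero _)
  | succ n ih =>
    have hlow := ih fun t ht => h t (by omega)
    intro t ht
    have h1 := coeff_mul_of_low (g := g) hlow (t := t) (by omega)
    rw [h t ht] at h1
    exact (mul_eq_zero.1 h1.symm).resolve_left hg

end Hypersurface

section Cohen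

variable {p : ℕ} {C : Type u} [CommRing C] [IsLocalRing C]

theorem IsCohen.le_length_quotient_pow (hC : IsCohen p C) (D : ℕ) :
    (D : ℕ∞) ≤ Module.length C (C ⧸ Ideal.span {(p : C) ^ D}) := by
  induction D with
  | zero => simp
  | succ D ih =>
    have hle : Ideal.span {(p : C) ^ (D + 1)} ≤ Ideal.span {(p : C) ^ D} :=
      Ideal.span_singleton_le_span_singleton.2 (pow_dvd_pow _ D.le_succ)
    rw [length_quotient_eq_add hle, Nat.cast_succ, add_comm (D : ℕ∞) 1]
    refine add_le_add ?_ ih
    rw [Order.one_le_iff_pos, Module.length_pos_iff, Submodule.nontrivial_iff_ne_bot]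
    intro h
    have h1 : Submodule.Quotient.mk (p := Ideal.span {(p : C) ^ (D + 1)}) ((p : C) ^ D) = 0 := by
      rw [← Submodule.mem_bot C, ← h]
      exact Submodule.mem_map_of_mem (Ideal.mem_span_singleton_self _)
    rw [Submodule.Quotient.mk_eq_zero, Ideal.mem_span_singleton,
      ← mul_one ((p : C) ^ D)] at h1
    have := hC.le_of_pow_dvd isUnit_one h1
    omega

/-- A hypersurface with value `p ^ D` at the origin has at least the expected lengths. -/
theorem le_length_hypersurface (hC : IsCohen p C) {d : ℕ} {g : MvPowerSeries (Fin d) C} {D : ℕ}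
    (hg : ∃ u : Cˣ, MvPowerSeries.constantCoeff g = (p : C) ^ D * (u : C)) (N : ℕ) :
    ((monCount d N * D : ℕ) : ℕ∞) ≤ Module.length (MvPowerSeries (Fin d) C)
      (MvPowerSeries (Fin d) C ⧸ (Ideal.span {g} ⊔
        Ideal.span (Set.range (MvPowerSeries.X : Fin d → MvPowerSeries (Fin d) C)) ^ N)) := by
  classical
  have := hC.isDomain
  obtain ⟨u, hu⟩ := hg
  have hg0 : MvPowerSeries.constantCoeff g ≠ 0 := by
    rw [hu]
    exact mul_ne_zero (hC.pow_ne_zero' D) u.ne_zero
  let P := MvPowerSeries (Fin d) C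
  set X : Ideal P := Ideal.span (Set.range (MvPowerSeries.X : Fin d → P))
  induction N with
  | zero => simp [monCount]
  | succ N ih =>
    have hle : Ideal.span {g} ⊔ X ^ (N + 1) ≤ Ideal.span {g} ⊔ X ^ N :=
      sup_le_sup_left (Ideal.pow_le_pow_right N.le_succ) _
    rw [length_quotient_eq_add hle, monCount, Finset.sum_range_succ, add_mul, add_comm,
      Nat.cast_add]
    refine add_le_add ?_ ih
    let π : P →+* C := MvPowerSeries.constantCoeff
    let Q := C ⧸ Ideal.span {(p : C) ^ D}
    let := π.toAlgebra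
    let τ : Sym (Fin d) N → (Fin d →₀ ℕ) := fun i => Multiset.toFinsupp (i : Multiset (Fin d))
    have hdeg : ∀ i, (τ i).degree = N := fun i => by
      have h := Multiset.toFinsupp_sum_eq (i : Multiset (Fin d))
      rw [Sym.card_coe] at h
      exact h
    have hτ : Function.Injective τ := fun i j h =>
      Sym.coe_injective (Multiset.toFinsupp.injective h)
    let XN : Submodule P P := X ^ N
    let ψ : XN →ₗ[P] (Sym (Fin d) N → Q) :=
      { toFun := fun f i => Submodule.Quotient.mk (MvPowerSeries.coeff (τ i) (f : P))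
        map_add' := fun f f' => by
          funext i
          simp only [Submodule.coe_add, map_add, Pi.add_apply, Submodule.Quotient.mk_add]
        map_smul' := fun c f => by
          funext i
          simp only [Submodule.coe_smul, smul_eq_mul, RingHom.id_apply, Pi.smul_apply]
          rw [coeff_mul_of_low (coeff_eq_zero_of_mem_span_X_pow f.2) (hdeg i).le,
            ← smul_eq_mul, Submodule.Quotient.mk_smul,
            ← IsScalarTower.algebraMap_smul C c (Submodule.Quotient.mk _ : Q)]
          rfl }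
    let f1 : XN →ₗ[P] P ⧸ (Ideal.span {g} ⊔ X ^ (N + 1)) :=
      (Ideal.span {g} ⊔ X ^ (N + 1)).mkQ.comp XN.subtype
    have hker : LinearMap.ker f1 ≤ LinearMap.ker ψ := by
      intro f hf
      rw [LinearMap.mem_ker, LinearMap.comp_apply, Submodule.mkQ_apply,
        Submodule.Quotient.mk_eq_zero] at hf
      obtain ⟨v, hv, w, hw, hvw⟩ := Submodule.mem_sup.1 hf
      obtain ⟨a, rfl⟩ := Ideal.mem_span_singleton'.1 hv
      have hw0 := coeff_eq_zero_of_mem_span_X_pow hw
      have hf0 := coeff_eq_zero_of_mem_span_X_pow f.2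
      have ha : ∀ t : Fin d →₀ ℕ, t.degree < N → MvPowerSeries.coeff t a = 0 :=
        coeff_eq_zero_of_mul hg0 fun t ht => by
          have h1 := congrArg (MvPowerSeries.coeff t) hvw
          rw [map_add, hw0 t (by omega), add_zero, mul_comm] at h1
          rw [h1]
          exact hf0 t ht
      rw [LinearMap.mem_ker]
      funext i
      show Submodule.Quotient.mk (MvPowerSeries.coeff (τ i) (f : P)) = (0 : Q)
      have h2 : MvPowerSeries.coeff (τ i) (f : P) =
          MvPowerSeries.constantCoeff g * MvPowerSeries.coeff (τ i) a := by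
        have h1 : a * g + w = (f : P) := hvw
        rw [← h1, map_add, hw0 _ (by rw [hdeg]; exact N.lt_succ_self), add_zero, mul_comm a g,
          coeff_mul_of_low ha (hdeg i).le]
      rw [Submodule.Quotient.mk_eq_zero, h2, hu, Ideal.mem_span_singleton, mul_assoc]
      exact dvd_mul_right _ _
    have hψ : Function.Surjective ψ := by
      intro v
      choose w hw using fun i => Submodule.mkQ_surjective (Ideal.span {(p : C) ^ D}) (v i)
      let F : P := fun t => ∑ i, if τ i = t then w i else 0
      have hF : F ∈ X ^ N := mem_span_X_pow fun t ht => by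
        show (∑ i, if τ i = t then w i else 0) = 0
        refine Finset.sum_eq_zero fun i _ => if_neg fun e => ?_
        rw [← e, hdeg] at ht
        exact lt_irrefl _ ht
      refine ⟨⟨F, hF⟩, funext fun i => ?_⟩
      show Submodule.Quotient.mk (∑ j, if τ j = τ i then w j else 0) = v i
      simp only [hτ.eq_iff]
      rw [Finset.sum_ite_eq' Finset.univ i w, if_pos (Finset.mem_univ i)]
      exact hw i
    have hlen : ((N.succ - 1 : ℕ) : ℕ∞) = (N : ℕ∞) := by simp
    calc ((d.multichoose N * D : ℕ) : ℕ∞)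
        ≤ Module.length P (Sym (Fin d) N → Q) := by
          rw [Module.length_pi, ENat.card_eq_coe_fintype_card, Sym.card_sym_eq_multichoose,
            Fintype.card_fin, Nat.cast_mul]
          refine mul_le_mul' le_rfl ((hC.le_length_quotient_pow D).trans_eq ?_)
          exact (Module.length_eq_of_surjective fun c => ⟨MvPowerSeries.C c,
            MvPowerSeries.constantCoeff_C c⟩).symm
      _ ≤ Module.length P (XN ⧸ LinearMap.ker f1) :=
          Module.length_le_of_surjective ((LinearMap.ker f1).liftQ ψ hker) fun v => by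
            obtain ⟨f, rfl⟩ := hψ v
            exact ⟨Submodule.Quotient.mk f, rfl⟩
      _ ≤ _ := by
          rw [f1.quotKerEquivRange.length_eq]
          refine Module.length_le_of_injective _ (Submodule.inclusion_injective ?_)
          rintro _ ⟨f, rfl⟩
          exact Submodule.mem_map_of_mem (Ideal.mem_sup_right f.2)

end Cohen

/-- The degree of a model is at most the multiplicity of the ring. -/
theorem Model.le_liminf {p : ℕ} {C : Type u} [CommRing C] [IsLocalRing C] (hC : IsCohen p C)
    {B : Type u} [CommRing B] [IsLocalRing B] [IsNoetherianRing B] {d : ℕ}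
    [Algebra (MvPowerSeries (Fin (d + 1)) C) B] {D : ℕ} (Mo : Model p B (C := C) (d := d) D)
    (hdim : dimNat B = d + 1) (hp : (p : B) ∈ maximalIdeal B) :
    (D : ℝ≥0∞) ≤ liminf (hsSeq B) atTop := by
  classical
  have := hC.isDomain
  set P := MvPowerSeries (Fin (d + 1)) C
  set X : Ideal P := Ideal.span (Set.range (MvPowerSeries.X : Fin (d + 1) → P))
  set h : P := (p : P) ^ Mo.b * Mo.G
  have hX : X.map (algebraMap P B) = Ideal.span (Set.range (modelX B C (d := d))) := by
    rw [Ideal.map_span, ← Set.range_comp]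
    rfl
  obtain ⟨r, hr⟩ := Mo.reduction
  set J := Ideal.span (Set.range (modelX B C (d := d)))
  have hpow : ∀ N, maximalIdeal B ^ (N + r) ≤ J ^ N := by
    suffices h : ∀ N, maximalIdeal B ^ (N + r) ≤ J ^ N * maximalIdeal B ^ r from
      fun N => (h N).trans Ideal.mul_le_left
    intro N
    induction N with
    | zero => simp
    | succ N ih =>
      rw [show N + 1 + r = 1 + (N + r) by omega, pow_add]
      refine (Ideal.mul_mono_right ih).trans ?_
      rw [mul_left_comm, pow_one, ← pow_succ', pow_succ J N, mul_assoc]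
      exact Ideal.mul_mono_right hr
  have : IsLocalHom (algebraMap P B) := by
    refine ((local_hom_TFAE _).out 0 2).2 ?_
    rw [maximalIdeal_series hC, Ideal.map_sup, hX, Ideal.map_span, Set.image_singleton, map_natCast,
      sup_le_iff, Ideal.span_singleton_le_iff_mem, Ideal.span_le]
    exact ⟨hp, by rintro _ ⟨i, rfl⟩; exact Mo.x_mem i⟩
  have hres : ∀ b : B, ∃ c : P, b - algebraMap P B c ∈ maximalIdeal B := fun b => by
    obtain ⟨c, hc⟩ := Mo.residue_surj b
    exact ⟨_, hc⟩
  obtain ⟨c₀, hc₀⟩ := Mo.small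
  have hsmall : ∀ N, Module.length P (P ⧸ (Ideal.span {Mo.g, h} ⊔ X ^ N)) ≤
      ((c₀ * (N + 1) ^ d : ℕ) : ℕ∞) := by
    intro N
    have h1 := hc₀ N
    rw [pow_succ, ← Nat.cast_mul, ← mul_assoc] at h1
    set L := Module.length P (P ⧸ (Ideal.span {Mo.g, h} ⊔ X ^ N)) with hL
    change L * ((N + 1 : ℕ) : ℕ∞) ≤ _ at h1
    have hLt : L ≠ ⊤ := fun e => by
      rw [e, ENat.top_mul (by simp)] at h1
      exact ENat.natCast_ne_top _ (top_le_iff.1 h1)
    obtain ⟨l, hl⟩ := ENat.ne_top_iff_exists.1 hLt
    rw [← hl, ← Nat.cast_mul, Nat.cast_le] at h1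
    rw [← hl, Nat.cast_le]
    exact Nat.le_of_mul_le_mul_right h1 N.succ_pos
  -- the comparison in each degree
  have key : ∀ N, ((monCount (d + 1) N * D : ℕ) : ℕ∞) ≤
      Module.length B (B ⧸ maximalIdeal B ^ (N + r)) + ((c₀ * (N + 1) ^ d : ℕ) : ℕ∞) := by
    intro N
    have hfin : Module.length B (B ⧸ J ^ N) ≠ ⊤ := length_quotient_ne_top (hpow N)
    set Q : Ideal P := Ideal.span {Mo.g} ⊔ X ^ N
    set K : Ideal P := (J ^ N).comap (algebraMap P B)
    have hQK : Q ≤ K := by
      refine sup_le (fun c hc => ?_) ?_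
      · rw [← Mo.ker_eq] at hc
        rw [Ideal.mem_comap, RingHom.mem_ker.1 hc]
        exact zero_mem _
      · rw [← Ideal.map_le_iff_le_comap, Ideal.map_pow, hX]
    have hQfin : Module.length P (P ⧸ Q) ≠ ⊤ := by
      refine ne_top_of_le_ne_top ?_ (length_quotient_sup_pow_le _ _ N)
      refine WithTop.mul_ne_top (ENat.natCast_ne_top _) (ne_top_of_le_ne_top (ENat.natCast_ne_top D)
        ((length_quotient_mono ?_).trans
          (length_quotient_pow_sup_le _ _ (maximalIdeal_series hC).le D)))
      obtain ⟨u, hu⟩ := Mo.g_const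
      refine sup_le ?_ le_sup_right
      rw [Ideal.span_singleton_le_iff_mem]
      have h1 : (p : P) ^ D = (MvPowerSeries.C (↑u⁻¹ : C)) *
          (Mo.g - (Mo.g - MvPowerSeries.C (MvPowerSeries.constantCoeff Mo.g))) := by
        rw [sub_sub_cancel, hu, map_mul, map_pow, map_natCast, mul_comm ((p : P) ^ D), ← mul_assoc,
          ← map_mul, Units.inv_mul, map_one, one_mul]
      rw [h1]
      exact Ideal.mul_mem_left _ _ (sub_mem (Ideal.mem_sup_left (Ideal.mem_span_singleton_self _))
        (Ideal.mem_sup_right (sub_C_constantCoeff_mem_span_X _)))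
    have hK : ∀ c ∈ K, h * c ∈ Q := by
      intro c hc
      have hcN : algebraMap P B c ∈ (X ^ N).map (algebraMap P B) := by rw [Ideal.map_pow, hX]; exact hc
      have hsub : ∀ b ∈ (X ^ N).map (algebraMap P B), ∀ b' : B,
          ∃ a ∈ X ^ N, algebraMap P B a = algebraMap P B h * (b' * b) := by
        intro b hb
        rw [Ideal.map] at hb
        induction hb using Submodule.span_induction with
        | mem b hb =>
          intro b'
          obtain ⟨a, ha, rfl⟩ := hb
          obtain ⟨π, hπ⟩ := Mo.cokilled b'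
          exact ⟨π * a, Ideal.mul_mem_left _ _ ha, by rw [map_mul, hπ, mul_assoc]⟩
        | zero => exact fun b' => ⟨0, zero_mem _, by simp⟩
        | add e e' _ _ i i' =>
          intro b'
          obtain ⟨a, ha, ea⟩ := i b'
          obtain ⟨a', ha', ea'⟩ := i' b'
          exact ⟨a + a', add_mem ha ha', by rw [map_add, ea, ea', mul_add, mul_add]⟩
        | smul s e _ i =>
          intro b'
          obtain ⟨a, ha, ea⟩ := i (b' * s)
          exact ⟨a, ha, by rw [ea, smul_eq_mul, mul_assoc]⟩
      obtain ⟨a, ha, ea⟩ := hsub _ hcN 1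
      rw [one_mul] at ea
      have h0 : h * c - a ∈ Ideal.span {Mo.g} := by
        rw [← Mo.ker_eq, RingHom.mem_ker, map_sub, map_mul, ea, sub_self]
      rw [← sub_add_cancel (h * c) a]
      exact add_mem (Ideal.mem_sup_left h0) (Ideal.mem_sup_right ha)
    refine (le_length_hypersurface hC Mo.g_const N).trans ?_
    rw [length_quotient_eq_add hQK, add_comm]
    refine add_le_add ?_ ((length_colon_le h hQfin hK).trans ((le_of_eq ?_).trans (hsmall N)))
    · refine le_trans ?_ (length_quotient_mono (hpow N))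
      refine le_trans ?_ (length_restrict_le hres (Module.length_ne_top_iff.1 hfin))
      let ψ : P →ₗ[P] B ⧸ J ^ N := ((J ^ N).mkQ.restrictScalars P).comp (Algebra.linearMap P B)
      refine Module.length_le_of_injective (K.liftQ ψ fun c hc =>
        LinearMap.mem_ker.2 ((Submodule.Quotient.mk_eq_zero _).2 hc)) ?_
      rw [injective_iff_map_eq_zero]
      intro y hy
      obtain ⟨c, rfl⟩ := Submodule.mkQ_surjective _ y
      exact (Submodule.Quotient.mk_eq_zero K).2 ((Submodule.Quotient.mk_eq_zero (J ^ N)).1 hy)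
    · rw [sup_right_comm, ← Ideal.span_union, Set.singleton_union]
  -- the limit
  refine ENNReal.le_of_forall_pos_le_add fun ε hε _ => ?_
  set f : ℕ → ℝ≥0∞ := fun N => hsSeq B (N + r)
  have tε : Tendsto (fun N : ℕ => (((d + 1).factorial * c₀ : ℕ) : ℝ≥0∞) *
      ((((N + 1 : ℕ) : ℝ≥0∞) ^ d / (N : ℝ≥0∞) ^ d) * (N : ℝ≥0∞)⁻¹)) atTop (𝓝 0) := by
    have := ENNReal.Tendsto.const_mul
      (ENNReal.Tendsto.mul (tendsto_add_pow_div_pow 1 d) (Or.inl one_ne_zero)
        ENNReal.tendsto_inv_nat_nhds_zero (Or.inr ENNReal.one_ne_top))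
      (Or.inr (ENNReal.natCast_ne_top ((d + 1).factorial * c₀)))
    rwa [mul_zero, mul_zero] at this
  have hb : ∀ᶠ N : ℕ in atTop, (D : ℝ≥0∞) *
      ((N : ℝ≥0∞) ^ (d + 1) / ((N + r : ℕ) : ℝ≥0∞) ^ (d + 1)) ≤ f N + (ε : ℝ≥0∞) := by
    filter_upwards [eventually_gt_atTop 0,
      tε.eventually_le_const (ENNReal.coe_pos.2 hε)] with N hN hNε
    have hN0 : (N : ℝ≥0∞) ≠ 0 := by exact_mod_cast hN.ne'
    have hNd : (N : ℝ≥0∞) ^ d ≠ 0 := pow_ne_zero _ hN0
    obtain ⟨n, rfl⟩ : ∃ n, N = n + 1 := ⟨N - 1, by omega⟩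
    refine le_trans ?_ (add_le_add le_rfl hNε)
    have h1 := ENat.toENNReal_le.2 (key (n + 1))
    rw [ENat.toENNReal_add, ENat.toENNReal_coe, ENat.toENNReal_coe] at h1
    set L : ℝ≥0∞ := ((Module.length B (B ⧸ maximalIdeal B ^ (n + 1 + r)) : ℕ∞) : ℝ≥0∞)
    have h2 : ((n + 1 : ℕ) : ℝ≥0∞) ^ (d + 1) * (D : ℝ≥0∞) ≤
        ((d + 1).factorial : ℝ≥0∞) * L +
          (((d + 1).factorial * c₀ * (n + 1 + 1) ^ d : ℕ) : ℝ≥0∞) := by
      calc ((n + 1 : ℕ) : ℝ≥0∞) ^ (d + 1) * (D : ℝ≥0∞)
          ≤ (((d + 1).factorial * monCount (d + 1) (n + 1) : ℕ) : ℝ≥0∞) * (D : ℝ≥0∞) :=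
            mul_le_mul' (by exact_mod_cast pow_le_factorial_mul_monCount (d + 1) n) le_rfl
        _ = ((d + 1).factorial : ℝ≥0∞) * ((monCount (d + 1) (n + 1) * D : ℕ) : ℝ≥0∞) := by
            push_cast; ring
        _ ≤ ((d + 1).factorial : ℝ≥0∞) * (L + ((c₀ * (n + 1 + 1) ^ d : ℕ) : ℝ≥0∞)) :=
            mul_le_mul' le_rfl h1
        _ = _ := by push_cast; ring
    show (D : ℝ≥0∞) * _ ≤ hsSeq B (n + 1 + r) + _
    rw [hsSeq, hdim, ← mul_div_assoc, mul_comm (D : ℝ≥0∞)]
    refine (ENNReal.div_le_div_right h2 _).trans ?_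
    rw [← ENNReal.div_add_div_same]
    refine add_le_add le_rfl ?_
    refine (ENNReal.div_le_div_left (pow_le_pow_left₀ zero_le
      (Nat.cast_le.2 (Nat.le_add_right (n + 1) r)) _) _).trans (le_of_eq ?_)
    rw [Nat.cast_mul, Nat.cast_pow, pow_succ ((n + 1 : ℕ) : ℝ≥0∞) d, div_eq_mul_inv, div_eq_mul_inv,
      ENNReal.mul_inv (Or.inl hNd) (Or.inl (ENNReal.pow_ne_top (ENNReal.natCast_ne_top _)))]
    ring
  have t1 := ENNReal.Tendsto.const_mul (tendsto_pow_div_add_pow r (d + 1)) (Or.inl one_ne_zero)
    (a := (D : ℝ≥0∞))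
  rw [mul_one] at t1
  rw [← t1.liminf_eq]
  refine (liminf_le_liminf hb).trans_eq ?_
  rw [liminf_add_const atTop f (ε : ℝ≥0∞) (by isBoundedDefault) (by isBoundedDefault)]
  exact congrArg (· + (ε : ℝ≥0∞)) (liminf_nat_add (hsSeq B) r)

end Vale.Agent.P202.Mixed
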