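import Vale.Agent.P202.Mult
import Vale.Agent.P202.RingSide.Reduction
import Vale.Agent.P202.Reduce.CutDim
import Vale.Agent.P202.Reduce.CutForms

/-!
# P202 mixed characteristic: generators of a reduction completing `p` to parameters
-/

noncomputable section

namespace Vale.Agent.P202.Mixed

open IsLocalRing

universe u

/-- Replacing one generator whose coefficient is a unit does not change the span, after moving it
to the place `s`. -/
theorem span_update_swap {A : Type u} [CommRing A] {n : ℕ} (z : Fin n → A) (U : Finset (Fin n))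
    (a : Fin n → A) {j s : Fin n} (hj : j ∈ U) (ha : IsUnit (a j)) :
    Ideal.span (Set.range (Function.update (z ∘ Equiv.swap j s) s (∑ i ∈ U, a i * z i))) =
      Ideal.span (Set.range z) := by
  set y := ∑ i ∈ U, a i * z i with hy
  set z' := Function.update (z ∘ Equiv.swap j s) s y
  set J := Ideal.span (Set.range z')
  have hother : ∀ i, i ≠ j → z i ∈ J := by
    intro i hi
    refine Ideal.subset_span ⟨Equiv.swap j s i, ?_⟩
    have hne : Equiv.swap j s i ≠ s := fun e => hi ((Equiv.swap j s).injective
      (e.trans (Equiv.swap_apply_left j s).symm))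
    simp [z', Function.update_of_ne hne]
  refine le_antisymm ?_ ?_
  · rw [Ideal.span_le]
    rintro _ ⟨i, rfl⟩
    by_cases hi : i = s
    · rw [show z' i = y by simp [z', hi]]
      exact Ideal.sum_mem _ fun i _ => Ideal.mul_mem_left _ _ (Ideal.subset_span ⟨i, rfl⟩)
    · rw [show z' i = z (Equiv.swap j s i) by simp [z', Function.update_of_ne hi]]
      exact Ideal.subset_span ⟨_, rfl⟩
  · rw [Ideal.span_le]
    rintro _ ⟨i, rfl⟩
    by_cases hi : i = j
    · subst hi
      refine (Ideal.unit_mul_mem_iff_mem J ha).1 ?_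
      rw [show a i * z i = y - ∑ k ∈ U.erase i, a k * z k by
        rw [hy, ← Finset.add_sum_erase U (fun k => a k * z k) hj]; ring]
      refine J.sub_mem (Ideal.subset_span ⟨s, by simp [z']⟩) (Ideal.sum_mem _ fun k hk => ?_)
      exact Ideal.mul_mem_left _ _ (hother k (Finset.mem_erase.1 hk).1)
    · exact hother i hi

variable {A : Type u} [CommRing A] [IsLocalRing A] [IsNoetherianRing A]

/-- One can choose generators of a reduction such that `p` and all but the first of them generate an
ideal containing a power of the maximal ideal. -/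
theorem exists_generators [IsDomain A] [Infinite (ResidueField A)] {π : A} (hπ : π ≠ 0) {d : ℕ}
    (hd : dimNat A = d + 1) (z₀ : Fin (d + 1) → A)
    {r : ℕ} (hr : maximalIdeal A ^ r ≤ Ideal.span (Set.range z₀)) :
    ∃ z : Fin (d + 1) → A, Ideal.span (Set.range z) = Ideal.span (Set.range z₀) ∧
      ∃ r', maximalIdeal A ^ r' ≤
        Ideal.span {π} ⊔ Ideal.span (Set.range fun i : Fin d => z i.succ) := by
  classical
  let used : ℕ → Finset (Fin (d + 1)) := fun k =>
    Finset.univ.filter fun j => (j : ℕ) ≠ 0 ∧ (j : ℕ) ≤ k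
  let I : (Fin (d + 1) → A) → ℕ → Ideal A := fun z k =>
    Ideal.span {π} ⊔ Ideal.span (z '' (used k : Set (Fin (d + 1))))
  suffices H : ∀ k ≤ d, ∃ z : Fin (d + 1) → A, Ideal.span (Set.range z) = Ideal.span (Set.range z₀) ∧
      ringKrullDim (A ⧸ I z k) ≤ ((d - k : ℕ) : WithBot ℕ∞) by
    obtain ⟨z, hzs, hdim⟩ := H d le_rfl
    rw [Nat.sub_self, Nat.cast_zero] at hdim
    obtain ⟨r', hr'⟩ := exists_pow_le_of_ringKrullDim_le_zero _ hdim
    refine ⟨z, hzs, r', hr'.trans (sup_le_sup_left (Ideal.span_mono ?_) _)⟩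
    rintro _ ⟨j, hj, rfl⟩
    obtain ⟨i, rfl⟩ := Fin.exists_succ_eq.2
      (fun e : j = 0 => (Finset.mem_filter.1 hj).2.1 (by simp [e]))
    exact ⟨i, rfl⟩
  intro k
  induction k with
  | zero =>
    intro _
    refine ⟨z₀, rfl, ?_⟩
    have hu : used 0 = ∅ := Finset.filter_eq_empty_iff.2 fun j _ h => h.1 (by omega)
    have hI : I z₀ 0 = Ideal.span {π} := by simp [I, hu]
    rw [hI, Nat.sub_zero]
    refine le_of_add_one_le_add_one ?_
    refine (ringKrullDim_quotient_succ_le_of_forall_notMem fun q hq => ?_).trans_eq ?_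
    · rw [IsDomain.minimalPrimes_eq_singleton_bot A] at hq
      rw [Set.mem_singleton_iff.1 hq, Ideal.mem_bot]
      exact hπ
    · rw [coe_dimNat A, hd]
  | succ k ih =>
    intro hk
    obtain ⟨z, hzs, hdim⟩ := ih (by omega)
    by_cases h0 : ringKrullDim (A ⧸ I z k) ≤ 0
    · refine ⟨z, hzs, le_trans (ringKrullDim_le_of_surjective _ (Ideal.Quotient.factor_surjective
        (sup_le_sup_left (Ideal.span_mono (Set.image_mono ?_)) _))) (h0.trans ?_)⟩
      · intro j hj
        simp only [Finset.coe_filter, Set.mem_ofPred_eq, used] at hj ⊢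
        exact ⟨hj.1, hj.2.1, by omega⟩
      · exact_mod_cast Nat.zero_le _
    set U : Finset (Fin (d + 1)) := Finset.univ.filter fun j => (j : ℕ) = 0 ∨ k < (j : ℕ)
    set M : Ideal A := Ideal.span (z '' (U : Set (Fin (d + 1))))
    have hUused : ∀ j, j ∉ U → j ∈ used k := fun j hj => by
      simp only [U, used, Finset.mem_filter, Finset.mem_univ, true_and, not_or] at hj ⊢
      omega
    have hJ : Ideal.span (Set.range z) ≤ I z k ⊔ M := by
      rw [Ideal.span_le]
      rintro _ ⟨j, rfl⟩
      by_cases hj : j ∈ U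
      · exact Ideal.mem_sup_right (Ideal.subset_span ⟨j, hj, rfl⟩)
      · exact Ideal.mem_sup_left (Ideal.mem_sup_right (Ideal.subset_span ⟨j, hUused j hj, rfl⟩))
    set R := A ⧸ I z k
    have : Nontrivial R := by
      by_contra h
      rw [not_nontrivial_iff_subsingleton] at h
      exact h0 (by rw [ringKrullDim_eq_bot_of_subsingleton]; simp)
    have : IsLocalRing R :=
      IsLocalRing.of_surjective' (Ideal.Quotient.mk (I z k)) Ideal.Quotient.mk_surjective
    have hmin : ∀ q ∈ minimalPrimes R, ¬ M ≤ q.comap (Ideal.Quotient.mk (I z k)) := by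
      intro q hq hM
      have hqp : q.IsPrime := hq.1.1
      set P := q.comap (Ideal.Quotient.mk (I z k))
      have hIP : I z k ≤ P := by
        have h := Ideal.comap_mono (f := Ideal.Quotient.mk (I z k)) (bot_le : ⊥ ≤ q)
        rwa [← RingHom.ker_eq_comap_bot, Ideal.mk_ker] at h
      have hm : maximalIdeal A ≤ P := Ideal.IsPrime.le_of_pow_le
        ((hr.trans (hzs.ge.trans hJ)).trans (sup_le hIP hM))
      have hqmax : q.IsMaximal := by
        have hPm : P.IsMaximal :=
          le_antisymm hm (le_maximalIdeal (Ideal.IsPrime.ne_top inferInstance)) ▸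
            maximalIdeal.isMaximal A
        have := Ideal.map_eq_top_or_isMaximal_of_surjective (Ideal.Quotient.mk (I z k))
          Ideal.Quotient.mk_surjective hPm
        rw [Ideal.map_comap_of_surjective _ Ideal.Quotient.mk_surjective] at this
        exact this.resolve_left hqp.ne_top
      have : Ring.KrullDimLE 0 R := Ring.krullDimLE_zero_iff.2 fun q' hq' => by
        have h1 : q' ≤ q := (le_maximalIdeal hq'.ne_top).trans_eq
          (IsLocalRing.eq_maximalIdeal hqmax).symm
        rwa [le_antisymm h1 (hq.2 ⟨hq', bot_le⟩ h1)]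
      exact h0 ((Order.krullDimLE_iff _ _).1 this)
    have hMm : ¬ M ≤ maximalIdeal A * M := by
      intro h
      have hM0 : M = ⊥ := Submodule.eq_bot_of_le_smul_of_le_jacobson_bot (maximalIdeal A) M
        (IsNoetherian.noetherian M) h (maximalIdeal_le_jacobson _)
      obtain ⟨q, hq, -⟩ := Ideal.exists_minimalPrimes_le
        (le_maximalIdeal (bot_ne_top : (⊥ : Ideal R) ≠ ⊤))
      exact hmin q hq (hM0 ▸ bot_le)
    obtain ⟨y, hyM, hy⟩ := exists_mem_forall_notMem M
      (insert (maximalIdeal A * M)
        ((minimalPrimes.finite_of_isNoetherianRing R).toFinset.image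
          (fun q => q.comap (Ideal.Quotient.mk (I z k))))) (by
      intro V hV
      rcases Finset.mem_insert.1 hV with rfl | hV
      · exact hMm
      · obtain ⟨q, hq, rfl⟩ := Finset.mem_image.1 hV
        exact hmin q ((Set.Finite.mem_toFinset _).1 hq))
    obtain ⟨a, ha⟩ := (Submodule.mem_span_image_finset_iff_exists_fun' A).1 hyM
    obtain ⟨j, hjU, hju⟩ : ∃ j ∈ U, IsUnit (a j) := by
      by_contra h
      push Not at h
      refine hy _ (Finset.mem_insert_self _ _) ?_
      rw [← ha]
      refine Ideal.sum_mem _ fun i hi => ?_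
      rw [smul_eq_mul]
      exact Ideal.mul_mem_mul ((mem_maximalIdeal _).2 (h i hi)) (Ideal.subset_span ⟨i, hi, rfl⟩)
    let s : Fin (d + 1) := ⟨k + 1, by omega⟩
    have hya : ∑ i ∈ U, a i * z i = y := by simpa using ha
    set z' := Function.update (z ∘ Equiv.swap j s) s y with hz'
    refine ⟨z', (hz' ▸ hya ▸ span_update_swap z U a hjU hju).trans hzs, ?_⟩
    have hfix : ∀ i ∈ used k, z' i = z i := by
      intro i hi
      simp only [used, U, Finset.mem_filter, Finset.mem_univ, true_and] at hi hjU
      have hne : i ≠ s := fun e => by simp [e, s] at hi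
      have hne' : i ≠ j := fun e => by subst e; omega
      simp [z', Function.update_of_ne hne, Equiv.swap_apply_of_ne_of_ne hne' hne]
    have hle : I z k ⊔ Ideal.span {y} ≤ I z' (k + 1) := by
      refine sup_le (sup_le_sup_left (Ideal.span_le.2 ?_) _) ?_
      · rintro _ ⟨i, hi, rfl⟩
        refine Ideal.subset_span ⟨i, ?_, hfix i hi⟩
        simp only [Finset.coe_filter, Set.mem_ofPred_eq, used] at hi ⊢
        exact ⟨hi.1, hi.2.1, by omega⟩
      · rw [Ideal.span_singleton_le_iff_mem]
        exact Ideal.mem_sup_right (Ideal.subset_span ⟨s, by simp [used, s], by simp [z']⟩)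
    refine (ringKrullDim_le_of_surjective _ (Ideal.Quotient.factor_surjective hle)).trans ?_
    rw [ringKrullDim_eq_of_ringEquiv (DoubleQuot.quotQuotEquivQuotSup (I z k)
      (Ideal.span {y})).symm, Ideal.map_span, Set.image_singleton]
    refine le_of_add_one_le_add_one ((ringKrullDim_quotient_succ_le_of_forall_notMem
      fun q hq hyq => hy _ (Finset.mem_insert_of_mem (Finset.mem_image.2
        ⟨q, (Set.Finite.mem_toFinset _).2 hq, rfl⟩)) hyq).trans ?_)
    rwa [show d - (k + 1) + 1 = d - k by omega]

end Vale.Agent.P202.Mixed
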