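import Mathlib

/-!
# P202 mixed characteristic: perturbation to a primitive element

A finite extension of domains of characteristic zero is, up to one denominator, generated by a
single element, which may be chosen congruent to a given one modulo `q ^ 2`.
-/

noncomputable section

namespace Vale.Agent.P202.Mixed

open IntermediateField

universe u

attribute [local instance] FractionRing.liftAlgebra FractionRing.isScalarTower_liftAlgebra

/-- A finite extension of domains of characteristic zero is generated by one element up to a
denominator; the element can be prescribed modulo `q ^ 2` for a natural number `q > 1`. -/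
theorem exists_primitive {R A : Type u} [CommRing R] [IsDomain R] [CharZero R] [CommRing A]
    [IsDomain A] [Algebra R A] [Module.Finite R A] (hinj : Function.Injective (algebraMap R A))
    {q : ℕ} (hq : 1 < q) (z : A) :
    ∃ x : A, (∃ w : A, x = z + (q : A) ^ 2 * w) ∧
      ∃ c : R, c ≠ 0 ∧ ∀ r : A, c • r ∈ Algebra.adjoin R {x} := by
  classical
  have : FaithfulSMul R A := (faithfulSMul_iff_algebraMap_injective R A).2 hinj
  let K := FractionRing R
  let L := FractionRing A
  have : FaithfulSMul R L := (faithfulSMul_iff_algebraMap_injective R L).2 (by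
    rw [IsScalarTower.algebraMap_eq R A L]
    exact (IsFractionRing.injective A L).comp hinj)
  let ι : A →ₐ[R] L := IsScalarTower.toAlgHom R A L
  have hι : Function.Injective ι := IsFractionRing.injective A L
  have hint : ∀ a : A, IsIntegral K (ι a) := fun a =>
    ((IsIntegral.of_finite R a).map ι).tower_top
  obtain ⟨s, hs⟩ := Module.finite_def.1 (inferInstance : Module.Finite R A)
  -- the fraction field is finite over the one of the base
  have htop : IntermediateField.adjoin K (ι '' (s : Set A)) = ⊤ := by
    set F := IntermediateField.adjoin K (ι '' (s : Set A))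
    have hA : ∀ a : A, ι a ∈ F := by
      intro a
      have ha : a ∈ Submodule.span R (s : Set A) := hs ▸ Submodule.mem_top
      induction ha using Submodule.span_induction with
      | mem b hb => exact IntermediateField.subset_adjoin K _ ⟨b, hb, rfl⟩
      | zero => rw [map_zero]; exact zero_mem F
      | add b b' _ _ hb hb' => rw [map_add]; exact add_mem hb hb'
      | smul r b _ hb =>
        rw [map_smul, Algebra.smul_def, IsScalarTower.algebraMap_apply R K L]
        exact mul_mem (F.algebraMap_mem _) hb
    refine eq_top_iff.2 fun l _ => ?_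
    obtain ⟨a, b, -, rfl⟩ := IsFractionRing.div_surjective (A := A) l
    exact div_mem (hA a) (hA b)
  have : FiniteDimensional K L := by
    have h := IntermediateField.finiteDimensional_adjoin (K := K) (S := ι '' (s : Set A))
      (by rintro _ ⟨a, -, rfl⟩; exact hint a)
    rw [htop] at h
    exact IntermediateField.topEquiv.toLinearEquiv.finiteDimensional
  have : CharZero K := charZero_of_injective_algebraMap (IsFractionRing.injective R K)
  have : Finite (IntermediateField K L) :=
    Field.finite_intermediateField_of_exists_primitive_element K L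
      (Field.exists_primitive_element K L)
  -- one generator at a time
  have step : ∀ t : Finset A, ∃ x : A, (∃ w : A, x = z + (q : A) ^ 2 * w) ∧
      ∀ g ∈ t, ι g ∈ K⟮ι x⟯ := by
    intro t
    induction t using Finset.induction_on with
    | empty => exact ⟨z, ⟨0, by simp⟩, fun g hg => absurd hg (Finset.notMem_empty g)⟩
    | insert g t _ ih =>
      obtain ⟨x, ⟨w, hw⟩, hx⟩ := ih
      obtain ⟨i, j, hij, he⟩ := Finite.exists_ne_map_eq_of_infinite
        (fun i : ℕ => K⟮ι (x + (q : A) ^ (i + 2) * g)⟯)
      set F := K⟮ι (x + (q : A) ^ (i + 2) * g)⟯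
      have hi : ι (x + (q : A) ^ (i + 2) * g) ∈ F := mem_adjoin_simple_self K _
      have hj : ι (x + (q : A) ^ (j + 2) * g) ∈ F := he ▸ mem_adjoin_simple_self K _
      have hd : ((q : K) ^ (i + 2) - (q : K) ^ (j + 2)) ≠ 0 := by
        rw [sub_ne_zero]
        intro e
        have e' : q ^ (i + 2) = q ^ (j + 2) := by exact_mod_cast e
        exact hij (by simpa using Nat.pow_right_injective hq e')
      have hg : ι g ∈ F := by
        have h1 := sub_mem hi hj
        rw [← map_sub, show x + (q : A) ^ (i + 2) * g - (x + (q : A) ^ (j + 2) * g) =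
          ((q : A) ^ (i + 2) - (q : A) ^ (j + 2)) * g by ring, map_mul] at h1
        have h2 : ι ((q : A) ^ (i + 2) - (q : A) ^ (j + 2)) =
            algebraMap K L ((q : K) ^ (i + 2) - (q : K) ^ (j + 2)) := by
          simp only [map_sub, map_pow, map_natCast]
          rw [map_natCast (algebraMap K L)]
        rw [h2] at h1
        have h3 := mul_mem (F.algebraMap_mem (((q : K) ^ (i + 2) - (q : K) ^ (j + 2))⁻¹)) h1
        rwa [← mul_assoc, ← map_mul, inv_mul_cancel₀ hd, map_one, one_mul] at h3
      have hxF : ι x ∈ F := by
        have h1 := sub_mem hi (mul_mem (pow_mem (IntermediateField.natCast_mem F q) (i + 2)) hg)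
        simpa using h1
      refine ⟨x + (q : A) ^ (i + 2) * g, ⟨w + (q : A) ^ i * g, by rw [hw]; ring⟩, fun g' hg' => ?_⟩
      rcases Finset.mem_insert.1 hg' with rfl | hg'
      · exact hg
      · exact (IntermediateField.adjoin_simple_le_iff.2 hxF) (hx g' hg')
  obtain ⟨x, hxw, hx⟩ := step s
  refine ⟨x, hxw, ?_⟩
  -- clearing denominators
  have hgen : ∀ g ∈ s, ∃ c : R, c ≠ 0 ∧ c • g ∈ Algebra.adjoin R {x} := by
    intro g hg
    have h1 : ι g ∈ (K⟮ι x⟯).toSubalgebra := hx g hg
    rw [IntermediateField.adjoin_simple_toSubalgebra_of_isAlgebraic (hint x).isAlgebraic,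
      Algebra.adjoin_singleton_eq_range_aeval] at h1
    obtain ⟨P, hP⟩ := h1
    obtain ⟨b, hb, hbP⟩ := IsLocalization.integerNormalization_spec (nonZeroDivisors R) P
    refine ⟨b, nonZeroDivisors.ne_zero hb, ?_⟩
    rw [Algebra.adjoin_singleton_eq_range_aeval]
    refine ⟨IsLocalization.integerNormalization (nonZeroDivisors R) P, hι ?_⟩
    show ι (Polynomial.aeval x (IsLocalization.integerNormalization (nonZeroDivisors R) P)) =
      ι (b • g)
    rw [← Polynomial.aeval_algHom_apply, map_smul, ← Polynomial.aeval_map_algebraMap K, hbP,
      ← IsScalarTower.algebraMap_smul K b P, map_smul,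
      show Polynomial.aeval (ι x) P = ι g from hP, IsScalarTower.algebraMap_smul]
  choose! c hc0 hc using hgen
  refine ⟨∏ g ∈ s, c g, Finset.prod_ne_zero_iff.2 hc0, fun r => ?_⟩
  have hr : r ∈ Submodule.span R (s : Set A) := hs ▸ Submodule.mem_top
  induction hr using Submodule.span_induction with
  | mem g hg =>
    rw [← Finset.prod_erase_mul s c hg, mul_smul]
    exact Subalgebra.smul_mem _ (hc g hg) _
  | zero => rw [smul_zero]; exact zero_mem _
  | add a b _ _ ha hb => rw [smul_add]; exact add_mem ha hb
  | smul e a _ ha => rw [smul_comm]; exact Subalgebra.smul_mem _ ha e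

end Vale.Agent.P202.Mixed
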