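import Vale.Agent.P202.Mixed.Source.Choose
import Vale.Agent.P202.Mixed.Source.Primitive
import Vale.Agent.P202.Mixed.Source.Tools

/-!
# P202 mixed characteristic: a finite parametrisation with one primitive element

A complete domain of mixed characteristic is finite over power series in a reduction, and becomes
generated by the first of them after inverting a series in the others.
-/

noncomputable section

namespace Vale.Agent.P202.Mixed

open IsLocalRing

universe u

/-- Power series in the last variables as power series in all of them. -/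
def incl (C : Type u) [CommRing C] (d : ℕ) :
    MvPowerSeries (Fin d) C →+* MvPowerSeries (Fin (d + 1)) C :=
  (MvPowerSeries.finSuccEquiv C d).symm.toRingHom.comp PowerSeries.C

theorem finSuccEquiv_incl {C : Type u} [CommRing C] {d : ℕ} (F : MvPowerSeries (Fin d) C) :
    MvPowerSeries.finSuccEquiv C d (incl C d F) = PowerSeries.C F :=
  (MvPowerSeries.finSuccEquiv C d).apply_symm_apply _

theorem incl_C {C : Type u} [CommRing C] {d : ℕ} (c : C) :
    incl C d (MvPowerSeries.C c) = MvPowerSeries.C c :=
  (MvPowerSeries.finSuccEquiv C d).injective (by rw [finSuccEquiv_incl, MvPowerSeries.finSuccEquiv_C])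

theorem incl_X {C : Type u} [CommRing C] {d : ℕ} (i : Fin d) :
    incl C d (MvPowerSeries.X i) = MvPowerSeries.X i.succ :=
  (MvPowerSeries.finSuccEquiv C d).injective
    (by rw [finSuccEquiv_incl, MvPowerSeries.finSuccEquiv_X_succ])

theorem coeff_incl {C : Type u} [CommRing C] {d : ℕ} (F : MvPowerSeries (Fin d) C)
    (t : Fin (d + 1) →₀ ℕ) :
    MvPowerSeries.coeff t (incl C d F) =
      if t 0 = 0 then MvPowerSeries.coeff t.tail F else 0 := by
  conv_lhs => rw [← Finsupp.cons_tail t, ← MvPowerSeries.coeff_coeff_finSuccEquiv,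
    finSuccEquiv_incl, PowerSeries.coeff_C]
  split_ifs with h
  · rfl
  · rw [map_zero]

/-- An integer prime to the residue characteristic is a unit, so a local domain in which `p` is
not zero has characteristic zero. -/
theorem charZero_of_prime_ne_zero {p : ℕ} [hp : Fact p.Prime] {A : Type u} [CommRing A]
    [IsLocalRing A] [IsDomain A] (h0 : (p : A) ≠ 0) (hm : (p : A) ∈ maximalIdeal A) :
    CharZero A := by
  refine charZero_of_inj_zero fun n hn => ?_
  by_contra hn0
  obtain ⟨k, m, hm', rfl⟩ := Nat.exists_eq_pow_mul_and_not_dvd hn0 p hp.out.ne_one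
  rw [Nat.cast_mul, Nat.cast_pow, mul_eq_zero] at hn
  rcases hn with h | h
  · exact h0 (pow_eq_zero_iff'.1 h).1
  · obtain ⟨a, b, hab⟩ := Int.isCoprime_iff_nat_coprime.2
      (show (p : ℤ).natAbs.Coprime (m : ℤ).natAbs by
        simpa using (Nat.Prime.coprime_iff_not_dvd hp.out).2 hm')
    have h1 := congrArg (fun z : ℤ => (z : A)) hab
    simp only [Int.cast_add, Int.cast_mul, Int.cast_natCast, Int.cast_one, h, mul_zero,
      add_zero] at h1
    exact (mem_maximalIdeal _).1 (h1 ▸ Ideal.mul_mem_left _ _ hm) isUnit_one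

/-- The parametrisation. -/
structure Param (p : ℕ) {C A : Type u} [CommRing C] [CommRing A] [IsLocalRing A] (θ : C →+* A)
    (d : ℕ) where
  φ : MvPowerSeries (Fin (d + 1)) C →+* A
  φ_C : ∀ c, φ (MvPowerSeries.C c) = θ c
  φ_mem : ∀ i, φ (MvPowerSeries.X i) ∈ maximalIdeal A
  φ_reduction : ∃ r, maximalIdeal A ^ (r + 1) ≤
    Ideal.span (Set.range fun i => φ (MvPowerSeries.X i)) * maximalIdeal A ^ r
  base_finite : (φ.comp (incl C d)).Finite
  base_injective : Function.Injective (φ.comp (incl C d))
  den : MvPowerSeries (Fin d) C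
  den_ne : den ≠ 0
  den_spec : ∀ a : A, ∃ π, φ π = φ (incl C d den) * a

variable {p : ℕ} [Fact p.Prime] {C : Type u} [CommRing C] [IsLocalRing C] {A : Type u}
  [CommRing A] [IsLocalRing A] [IsNoetherianRing A] [IsDomain A]
  [IsAdicComplete (maximalIdeal A) A]

theorem exists_param [Infinite (ResidueField A)] (hC : IsCohen p C) (hp0 : (p : A) ≠ 0)
    (hpm : (p : A) ∈ maximalIdeal A) (θ : C →+* A) (hθ : ∀ a, ∃ c, a - θ c ∈ maximalIdeal A)
    {d : ℕ} (hd : dimNat A = d + 1) : Nonempty (Param p θ d) := by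
  classical
  have := hC.isDomain
  have := hC.noetherian
  have := hC.complete
  set m := maximalIdeal A
  obtain ⟨y, r, hym, hyr⟩ := exists_reduction_strong (A := A)
  set z₀ : Fin (d + 1) → A := y ∘ Fin.cast hd.symm
  have hrange : Set.range z₀ = Set.range y :=
    Function.Surjective.range_comp (finCongr hd.symm).surjective y
  obtain ⟨z, hz, r', hr'⟩ := exists_generators hp0 hd z₀ (r := r + 1)
    (hyr.trans (Ideal.mul_le_left.trans_eq (by rw [hrange])))
  rw [hrange] at hz
  have hzm : ∀ i, z i ∈ m := fun i => hym (hz ▸ Ideal.subset_span ⟨i, rfl⟩)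
  -- the map of the last variables
  let P' := MvPowerSeries (Fin d) C
  have : IsAdicComplete (maximalIdeal P') P' := isAdicComplete_mvPowerSeries
  have : IsNoetherianRing P' := inferInstance
  have : IsDomain P' := NoZeroDivisors.to_isDomain P'
  obtain ⟨φ', hφC, hφX, -⟩ := exists_evalHom θ (fun i : Fin d => z i.succ) fun i => hzm _
  have hmap : (maximalIdeal P').map φ' =
      Ideal.span {(p : A)} ⊔ Ideal.span (Set.range fun i : Fin d => z i.succ) := by
    rw [maximalIdeal_series hC, Ideal.map_sup, Ideal.map_span, Ideal.map_span, Set.image_singleton,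
      map_natCast, ← Set.range_comp]
    congr 2
    exact congrArg Set.range (funext hφX)
  have hfin : φ'.Finite := by
    refine finite_of_localHom φ' (fun a => ?_) ?_ (hr'.trans_eq hmap.symm)
    · obtain ⟨c, hc⟩ := hθ a
      exact ⟨MvPowerSeries.C c, by rw [hφC]; exact hc⟩
    · rw [hmap, sup_le_iff, Ideal.span_singleton_le_iff_mem, Ideal.span_le]
      exact ⟨hpm, fun _ ⟨i, hi⟩ => hi ▸ hzm _⟩
  have hinj : Function.Injective φ' := by
    rw [injective_iff_map_eq_zero]
    intro f hf
    by_contra hf0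
    have h1 : ringKrullDim (P' ⧸ Ideal.span {f}) + 1 ≤ ((d + 1 : ℕ) : WithBot ℕ∞) := by
      refine (ringKrullDim_quotient_succ_le_of_forall_notMem fun q hq => ?_).trans
        (ringKrullDim_series_le hC d)
      rw [IsDomain.minimalPrimes_eq_singleton_bot P', Set.mem_singleton_iff] at hq
      rw [hq, Ideal.mem_bot]
      exact hf0
    let ψ := Ideal.Quotient.lift (Ideal.span {f}) φ' fun a ha => by
      obtain ⟨b, rfl⟩ := Ideal.mem_span_singleton'.1 ha
      rw [map_mul, hf, mul_zero]
    have hψ : ψ.IsIntegral :=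
      RingHom.IsIntegral.tower_top (Ideal.Quotient.mk (Ideal.span {f})) ψ hfin.to_isIntegral
    have h2 := (ringKrullDim_le_of_isIntegral ψ hψ).trans (le_of_add_one_le_add_one h1)
    rw [coe_dimNat A, hd] at h2
    exact absurd (show d + 1 ≤ d by exact_mod_cast h2) (by omega)
  -- the primitive element
  have : CharZero A := charZero_of_prime_ne_zero hp0 hpm
  have : CharZero P' := φ'.charZero
  let := φ'.toAlgebra
  have : Module.Finite P' A := hfin
  obtain ⟨x, ⟨w, hxw⟩, c, hc0, hc⟩ :=
    exists_primitive (R := P') hinj (Fact.out : p.Prime).one_lt (z 0)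
  have hp2 : (p : A) ^ 2 * w ∈ m ^ 2 := Ideal.mul_mem_right _ _ (Ideal.pow_mem_pow hpm 2)
  have hxm : x ∈ m := hxw ▸ add_mem (hzm 0) (Ideal.pow_le_self two_ne_zero hp2)
  set v : Fin (d + 1) → A := Fin.cons x fun i : Fin d => z i.succ
  have hvm : ∀ i, v i ∈ m := Fin.cases (by simpa [v] using hxm) fun i => by simpa [v] using hzm _
  obtain ⟨φ, hφC', hφX', -⟩ := exists_evalHom θ v hvm
  have hcomp : φ.comp (incl C d) = φ' := by
    refine series_hom_ext _ _ (fun c => ?_) (fun i => ?_) fun i => by rw [hφX]; exact hzm _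
    · rw [RingHom.comp_apply, incl_C, hφC', hφC]
    · rw [RingHom.comp_apply, incl_X, hφX', hφX]
      simp [v]
  have hmem : ∀ i, φ (MvPowerSeries.X i) ∈ maximalIdeal A := fun i => by rw [hφX']; exact hvm i
  have hfin' : (φ.comp (incl C d)).Finite := hcomp.symm ▸ hfin
  have hinj' : Function.Injective (φ.comp (incl C d)) := hcomp.symm ▸ hinj
  refine ⟨⟨φ, hφC', hmem, ⟨r, ?_⟩, hfin', hinj', c, hc0, fun a => ?_⟩⟩
  · -- the perturbed elements still span a reduction
    simp only [hφX']
    set J := Ideal.span (Set.range v)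
    have hzJ : Ideal.span (Set.range z) ≤ J ⊔ m ^ 2 := by
      rw [Ideal.span_le]
      rintro _ ⟨i, rfl⟩
      refine Fin.cases ?_ (fun j => ?_) i
      · rw [show z 0 = x - (p : A) ^ 2 * w by rw [hxw]; ring]
        exact sub_mem (Ideal.mem_sup_left (Ideal.subset_span ⟨0, by simp [v]⟩))
          (Ideal.mem_sup_right hp2)
      · exact Ideal.mem_sup_left (Ideal.subset_span ⟨j.succ, by simp [v]⟩)
    have hle : m ^ (r + 1) ≤ J * m ^ r ⊔ m • m ^ (r + 1) := by
      refine hyr.trans ((Ideal.mul_mono_left (hz ▸ hzJ)).trans_eq ?_)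
      rw [Ideal.sup_mul, smul_eq_mul, ← pow_add, ← pow_succ', show 2 + r = r + 1 + 1 by omega]
    exact Submodule.le_of_le_smul_of_le_jacobson_bot (IsNoetherian.noetherian _)
      (maximalIdeal_le_jacobson _) hle
  · have key : ∀ e ∈ Algebra.adjoin P' ({x} : Set A), e ∈ φ.range := by
      intro e he
      induction he using Algebra.adjoin_induction with
      | mem e he => exact ⟨MvPowerSeries.X 0, by rw [hφX', Set.mem_singleton_iff.1 he]; simp [v]⟩
      | algebraMap e => exact ⟨incl C d e, RingHom.congr_fun hcomp e⟩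
      | add _ _ _ _ h1 h2 => exact add_mem h1 h2
      | mul _ _ _ _ h1 h2 => exact mul_mem h1 h2
    obtain ⟨π, hπ⟩ := key _ (hc a)
    exact ⟨π, by rw [hπ, Algebra.smul_def]; exact congrArg (· * a) (RingHom.congr_fun hcomp c).symm⟩

end Vale.Agent.P202.Mixed
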